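/-
Row 302, package MSS (owner helper255).  File 1a: real rational functions with nonpositive imaginary
part on the upper half plane: definition and partial fractions with nonnegative residues.
Steps: local asymptotics at a pole, special angles, real poles are simple with positive residue,
no poles off the real axis, cancellation of the gcd, Lagrange interpolation, pole at infinity.
-/
import Mathlib

set_option autoImplicit false

namespace Claimed.Agent.R302

open Polynomial Filter Topology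

/-- local asymptotics at a zero of the denominator. -/
theorem mss_pole_asym (F G E : ℂ[X]) (y u : ℂ) (m : ℕ) (hF : F = (X - C y) ^ m * E)
    (hE : E.eval y ≠ 0) (hu : u ≠ 0)
    (hdir : ∀ᶠ ρ : ℝ in 𝓝[>] (0 : ℝ), 0 < (y + ρ * u).im)
    (h : ∀ z : ℂ, 0 < z.im → F.eval z ≠ 0 → (G.eval z / F.eval z).im ≤ 0) :
    (G.eval y / (E.eval y * u ^ m)).im ≤ 0 := by
  have hpath : Tendsto (fun ρ : ℝ => y + (ρ : ℂ) * u) (𝓝[>] (0 : ℝ)) (𝓝 y) := by
    have : Continuous (fun ρ : ℝ => y + (ρ : ℂ) * u) := by fun_prop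
    have h2 := this.tendsto 0
    simp only [Complex.ofReal_zero, zero_mul, add_zero] at h2
    exact h2.mono_left nhdsWithin_le_nhds
  have hEt : Tendsto (fun ρ : ℝ => E.eval (y + (ρ : ℂ) * u)) (𝓝[>] (0 : ℝ)) (𝓝 (E.eval y)) :=
    (E.continuous.tendsto y).comp hpath
  have hGt : Tendsto (fun ρ : ℝ => G.eval (y + (ρ : ℂ) * u)) (𝓝[>] (0 : ℝ)) (𝓝 (G.eval y)) :=
    (G.continuous.tendsto y).comp hpath
  have hlim : Tendsto (fun ρ : ℝ => (G.eval (y + (ρ : ℂ) * u) / (E.eval (y + (ρ : ℂ) * u) * u ^ m)).im)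
      (𝓝[>] (0 : ℝ)) (𝓝 (G.eval y / (E.eval y * u ^ m)).im) := by
    refine (Complex.continuous_im.tendsto _).comp ?_
    exact hGt.div (hEt.mul_const _) (mul_ne_zero hE (pow_ne_zero _ hu))
  refine le_of_tendsto hlim ?_
  have hEne : ∀ᶠ ρ : ℝ in 𝓝[>] (0 : ℝ), E.eval (y + (ρ : ℂ) * u) ≠ 0 := hEt.eventually_ne hE
  filter_upwards [hdir, hEne, self_mem_nhdsWithin] with ρ h1 h2 h3
  have hρ : (0 : ℝ) < ρ := h3
  have hρc : (ρ : ℂ) ≠ 0 := by exact_mod_cast hρ.ne'
  have hFz : F.eval (y + (ρ : ℂ) * u) = ((ρ ^ m : ℝ) : ℂ) * (E.eval (y + (ρ : ℂ) * u) * u ^ m) := by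
    rw [hF]
    simp only [eval_mul, eval_pow, eval_sub, eval_X, eval_C, add_sub_cancel_left, mul_pow]
    push_cast
    ring
  have hFne : F.eval (y + (ρ : ℂ) * u) ≠ 0 := by
    rw [hFz]
    refine mul_ne_zero ?_ (mul_ne_zero h2 (pow_ne_zero _ hu))
    exact_mod_cast (pow_pos hρ m).ne'
  have h4 := h _ h1 hFne
  rw [hFz] at h4
  have h5 : G.eval (y + (ρ : ℂ) * u) / (E.eval (y + (ρ : ℂ) * u) * u ^ m) =
      ((ρ ^ m : ℝ) : ℂ) * (G.eval (y + (ρ : ℂ) * u) /
        (((ρ ^ m : ℝ) : ℂ) * (E.eval (y + (ρ : ℂ) * u) * u ^ m))) := by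
    have : ((ρ ^ m : ℝ) : ℂ) ≠ 0 := by exact_mod_cast (pow_pos hρ m).ne'
    field_simp
  rw [h5, Complex.im_ofReal_mul]
  exact mul_nonpos_of_nonneg_of_nonpos (pow_pos hρ m).le h4

/-- a point of the open upper half plane whose `m`-th power is `I`. -/
theorem mss_exists_pow_eq_I (m : ℕ) (hm : 1 ≤ m) : ∃ u : ℂ, 0 < u.im ∧ u ^ m = Complex.I := by
  have hm0 : (0 : ℝ) < m := by exact_mod_cast hm
  refine ⟨Complex.exp ((Real.pi / (2 * m) : ℝ) * Complex.I), ?_, ?_⟩
  · rw [Complex.exp_ofReal_mul_I_im]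
    apply Real.sin_pos_of_pos_of_lt_pi
    · positivity
    · rw [div_lt_iff₀ (by positivity)]
      have : (1 : ℝ) ≤ m := by exact_mod_cast hm
      nlinarith [Real.pi_pos]
  · rw [← Complex.exp_nat_mul]
    have : (m : ℂ) * (((Real.pi / (2 * m) : ℝ) : ℂ) * Complex.I) = (Real.pi / 2 : ℝ) * Complex.I := by
      have hmc : (m : ℂ) ≠ 0 := by exact_mod_cast hm0.ne'
      push_cast
      field_simp
    rw [this, Complex.exp_mul_I]
    simp

/-- a point of the open upper half plane whose `m`-th power is `-I`, `m ≥ 2`. -/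
theorem mss_exists_pow_eq_neg_I (m : ℕ) (hm : 2 ≤ m) : ∃ u : ℂ, 0 < u.im ∧ u ^ m = -Complex.I := by
  have hm0 : (0 : ℝ) < m := by
    have : 0 < m := by omega
    exact_mod_cast this
  refine ⟨Complex.exp ((3 * Real.pi / (2 * m) : ℝ) * Complex.I), ?_, ?_⟩
  · rw [Complex.exp_ofReal_mul_I_im]
    apply Real.sin_pos_of_pos_of_lt_pi
    · positivity
    · rw [div_lt_iff₀ (by positivity)]
      have : (2 : ℝ) ≤ m := by exact_mod_cast hm
      nlinarith [Real.pi_pos]
  · rw [← Complex.exp_nat_mul]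
    have : (m : ℂ) * (((3 * Real.pi / (2 * m) : ℝ) : ℂ) * Complex.I) =
        (Real.pi : ℂ) * Complex.I + (Real.pi / 2 : ℝ) * Complex.I := by
      have hmc : (m : ℂ) ≠ 0 := by exact_mod_cast hm0.ne'
      push_cast
      field_simp
      ring
    rw [this, Complex.exp_add, Complex.exp_pi_mul_I, Complex.exp_mul_I]
    simp

/-- `g / f` has nonpositive imaginary part at every point of the upper half plane where `f ≠ 0`. -/
def MssNevan (f g : ℝ[X]) : Prop :=
  ∀ z : ℂ, 0 < z.im → aeval z f ≠ 0 → (aeval z g / aeval z f).im ≤ 0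

theorem mss_nevan_map {f g : ℝ[X]} (h : MssNevan f g) (z : ℂ) (hz : 0 < z.im)
    (hne : (f.map (algebraMap ℝ ℂ)).eval z ≠ 0) :
    ((g.map (algebraMap ℝ ℂ)).eval z / (f.map (algebraMap ℝ ℂ)).eval z).im ≤ 0 := by
  rw [eval_map_algebraMap] at hne ⊢
  rw [eval_map_algebraMap]
  exact h z hz hne

/-- a real pole is simple and has positive residue. -/
theorem mss_real_pole (f g e : ℝ[X]) (y : ℝ) (m : ℕ) (hm : 1 ≤ m) (hf : f = (X - C y) ^ m * e)
    (he : e.eval y ≠ 0) (hg : g.eval y ≠ 0) (h : MssNevan f g) :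
    m = 1 ∧ 0 < g.eval y / e.eval y := by
  have key : ∀ u : ℂ, 0 < u.im → (((g.eval y / e.eval y : ℝ) : ℂ) / u ^ m).im ≤ 0 := by
    intro u hu
    have hu0 : u ≠ 0 := by
      rintro rfl
      simp at hu
    have hF : f.map (algebraMap ℝ ℂ) = (X - C (y : ℂ)) ^ m * e.map (algebraMap ℝ ℂ) := by
      rw [hf]
      simp
    have hEy : (e.map (algebraMap ℝ ℂ)).eval (y : ℂ) = ((e.eval y : ℝ) : ℂ) := by
      rw [eval_map_algebraMap]
      exact aeval_algebraMap_apply_eq_algebraMap_eval y e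
    have hGy : (g.map (algebraMap ℝ ℂ)).eval (y : ℂ) = ((g.eval y : ℝ) : ℂ) := by
      rw [eval_map_algebraMap]
      exact aeval_algebraMap_apply_eq_algebraMap_eval y g
    have := mss_pole_asym _ (g.map (algebraMap ℝ ℂ)) _ (y : ℂ) u m hF
      (by rw [hEy]; exact_mod_cast he) hu0 ?_ (mss_nevan_map h)
    · rw [hEy, hGy] at this
      rw [Complex.ofReal_div, div_div]
      exact this
    · filter_upwards [self_mem_nhdsWithin] with ρ hρ
      have hρ' : (0 : ℝ) < ρ := hρ
      simp only [Complex.add_im, Complex.ofReal_im, Complex.mul_im, Complex.ofReal_re, zero_mul,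
        add_zero, zero_add]
      positivity
  have hc0 : g.eval y / e.eval y ≠ 0 := div_ne_zero hg he
  obtain ⟨u, hu, hum⟩ := mss_exists_pow_eq_I m hm
  have h1 := key u hu
  rw [hum] at h1
  have h1' : 0 ≤ g.eval y / e.eval y := by
    have : (((g.eval y / e.eval y : ℝ) : ℂ) / Complex.I).im = -(g.eval y / e.eval y) := by
      rw [Complex.div_I]
      simp
    rw [this] at h1
    linarith
  refine ⟨?_, lt_of_le_of_ne h1' hc0.symm⟩
  by_contra hne
  have hm2 : 2 ≤ m := by omega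
  obtain ⟨v, hv, hvm⟩ := mss_exists_pow_eq_neg_I m hm2
  have h2 := key v hv
  rw [hvm] at h2
  have : (((g.eval y / e.eval y : ℝ) : ℂ) / -Complex.I).im = (g.eval y / e.eval y) := by
    rw [div_neg, Complex.div_I]
    simp
  rw [this] at h2
  exact hc0 (le_antisymm h2 h1')

/-- no pole in the open upper half plane. -/
theorem mss_no_upper_pole (f g : ℝ[X]) (hf : f ≠ 0) (z : ℂ) (hz : 0 < z.im) (hfz : aeval z f = 0)
    (hgz : aeval z g ≠ 0) (h : MssNevan f g) : False := by
  set F := f.map (algebraMap ℝ ℂ) with hFdef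
  have hF0 : F ≠ 0 := by
    rw [hFdef]
    exact (Polynomial.map_ne_zero_iff (algebraMap ℝ ℂ).injective).mpr hf
  obtain ⟨E, hFE, hE⟩ := exists_eq_pow_rootMultiplicity_mul_and_not_dvd F hF0 z
  have hEz : E.eval z ≠ 0 := by
    intro h0
    exact hE (dvd_iff_isRoot.mpr h0)
  have hGz : (g.map (algebraMap ℝ ℂ)).eval z ≠ 0 := by
    rw [eval_map_algebraMap]
    exact hgz
  set m := rootMultiplicity z F with hm
  have hm1 : 0 < m := by
    rw [hm, rootMultiplicity_pos hF0, IsRoot, hFdef, eval_map_algebraMap]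
    exact hfz
  set c := (g.map (algebraMap ℝ ℂ)).eval z / E.eval z with hc
  have hc0 : c ≠ 0 := div_ne_zero hGz hEz
  obtain ⟨u, hu⟩ := IsAlgClosed.exists_pow_nat_eq (-Complex.I * c) hm1
  have hu0 : u ≠ 0 := by
    rintro rfl
    rw [zero_pow hm1.ne'] at hu
    exact (mul_ne_zero (neg_ne_zero.mpr Complex.I_ne_zero) hc0) hu.symm
  have := mss_pole_asym F (g.map (algebraMap ℝ ℂ)) E z u m hFE hEz hu0 ?_ (mss_nevan_map h)
  · rw [← div_div, ← hc, hu] at this
    have h3 : c / (-Complex.I * c) = Complex.I := by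
      field_simp
      simp
    rw [h3] at this
    simp at this
    linarith
  · have hcont : Continuous (fun ρ : ℝ => (z + (ρ : ℂ) * u).im) := by fun_prop
    have h0 : (0 : ℝ) < (z + ((0 : ℝ) : ℂ) * u).im := by simpa using hz
    exact (hcont.tendsto 0).eventually_const_lt h0 |>.filter_mono nhdsWithin_le_nhds

theorem mss_aeval_conj (f : ℝ[X]) (z : ℂ) :
    aeval ((starRingEnd ℂ) z) f = (starRingEnd ℂ) (aeval z f) := by
  have := Polynomial.aeval_algHom_apply Complex.conjAe.toAlgHom z f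
  simpa using this

/-- for a coprime pair all complex roots of the denominator are real. -/
theorem mss_root_real (f g : ℝ[X]) (hf : f ≠ 0) (hco : IsCoprime f g) (h : MssNevan f g) (z : ℂ)
    (hfz : aeval z f = 0) : z.im = 0 := by
  obtain ⟨a, b, hab⟩ := hco
  have hg : ∀ w : ℂ, aeval w f = 0 → aeval w g ≠ 0 := by
    intro w hw hgw
    have := congrArg (aeval w) hab
    simp [hw, hgw] at this
  rcases lt_trichotomy z.im 0 with hlt | heq | hgt
  · exfalso
    have hfz' : aeval ((starRingEnd ℂ) z) f = 0 := by rw [mss_aeval_conj, hfz, map_zero]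
    exact mss_no_upper_pole f g hf _ (by simpa using hlt) hfz' (hg _ hfz') h
  · exact heq
  · exact (mss_no_upper_pole f g hf z hgt hfz (hg _ hfz) h).elim

/-- cancelling a common factor. -/
theorem mss_nevan_cancel (d f g : ℝ[X]) (hd : d ≠ 0) (h : MssNevan (d * f) (d * g)) :
    MssNevan f g := by
  intro z hz hne
  have hcf : ContinuousAt (fun w : ℂ => (aeval w g / aeval w f).im) z := by
    have h1 : Continuous (fun w : ℂ => aeval w g) := by
      simpa using (Polynomial.continuous_aeval g : Continuous fun w : ℂ => aeval w g)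
    have h2 : Continuous (fun w : ℂ => aeval w f) := by
      simpa using (Polynomial.continuous_aeval f : Continuous fun w : ℂ => aeval w f)
    exact Complex.continuous_im.continuousAt.comp (h1.continuousAt.div h2.continuousAt hne)
  have hlim : Tendsto (fun w : ℂ => (aeval w g / aeval w f).im) (𝓝[≠] z)
      (𝓝 (aeval z g / aeval z f).im) := hcf.tendsto.mono_left nhdsWithin_le_nhds
  refine le_of_tendsto hlim ?_
  have hfin : ((d.rootSet ℂ) \ {z}).Finite := (Polynomial.rootSet_finite d ℂ).subset Set.sdiff_subset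
  have h1 : ∀ᶠ w in 𝓝 z, w ∉ (d.rootSet ℂ) \ {z} :=
    hfin.isClosed.isOpen_compl.mem_nhds (by simp)
  have h2 : ∀ᶠ w in 𝓝 z, 0 < w.im :=
    (Complex.continuous_im.tendsto z).eventually_const_lt hz
  have h3 : ∀ᶠ w in 𝓝 z, aeval w f ≠ 0 := by
    have h2 : Continuous (fun w : ℂ => aeval w f) := by
      simpa using (Polynomial.continuous_aeval f : Continuous fun w : ℂ => aeval w f)
    exact (h2.tendsto z).eventually_ne hne
  filter_upwards [h1.filter_mono nhdsWithin_le_nhds, h2.filter_mono nhdsWithin_le_nhds,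
    h3.filter_mono nhdsWithin_le_nhds, self_mem_nhdsWithin] with w hw1 hw2 hw3 hw4
  have hdw : aeval w d ≠ 0 := by
    intro h0
    apply hw1
    refine ⟨?_, hw4⟩
    rw [Polynomial.mem_rootSet]
    exact ⟨hd, h0⟩
  have := h w hw2 (by rw [map_mul]; exact mul_ne_zero hdw hw3)
  rwa [map_mul, map_mul, mul_div_mul_left _ _ hdw] at this

/-- reduction to a coprime pair. -/
theorem mss_nevan_coprime (f g : ℝ[X]) (hf : f ≠ 0) (h : MssNevan f g) :
    ∃ d f₁ g₁ : ℝ[X], d ≠ 0 ∧ f = d * f₁ ∧ g = d * g₁ ∧ IsCoprime f₁ g₁ ∧ MssNevan f₁ g₁ := by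
  classical
  have hd : EuclideanDomain.gcd f g ≠ 0 := by
    intro h0
    exact hf (EuclideanDomain.gcd_eq_zero_iff.mp h0).1
  obtain ⟨f₁, hf₁⟩ := EuclideanDomain.gcd_dvd_left f g
  obtain ⟨g₁, hg₁⟩ := EuclideanDomain.gcd_dvd_right f g
  refine ⟨EuclideanDomain.gcd f g, f₁, g₁, hd, hf₁, hg₁, ?_, ?_⟩
  · obtain ⟨a, b, hab⟩ : ∃ a b, EuclideanDomain.gcd f g = f * a + g * b :=
      ⟨_, _, EuclideanDomain.gcd_eq_gcd_ab f g⟩
    refine ⟨a, b, ?_⟩
    apply mul_left_cancel₀ hd
    calc EuclideanDomain.gcd f g * (a * f₁ + b * g₁)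
        = (EuclideanDomain.gcd f g * f₁) * a + (EuclideanDomain.gcd f g * g₁) * b := by ring
      _ = f * a + g * b := by rw [← hf₁, ← hg₁]
      _ = EuclideanDomain.gcd f g * 1 := by rw [mul_one, ← hab]
  · apply mss_nevan_cancel _ _ _ hd
    rw [← hf₁, ← hg₁]
    exact h

theorem mss_rootMultiplicity_eq_one (f g : ℝ[X]) (hf : f ≠ 0) (hco : IsCoprime f g)
    (h : MssNevan f g) (y : ℝ) (hy : f.IsRoot y) : rootMultiplicity y f = 1 := by
  obtain ⟨e, hfe, he⟩ := exists_eq_pow_rootMultiplicity_mul_and_not_dvd f hf y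
  have hey : e.eval y ≠ 0 := fun h0 => he (dvd_iff_isRoot.mpr h0)
  have hgy : g.eval y ≠ 0 := by
    obtain ⟨a, b, hab⟩ := hco
    intro hg0
    have := congrArg (eval y) hab
    simp [hg0, hy.eq_zero] at this
  exact (mss_real_pole f g e y _ ((rootMultiplicity_pos hf).mpr hy) hfe hey hgy h).1

/-- the denominator of a coprime pair is a constant times a product of distinct real linear
factors. -/
theorem mss_denominator_split (f g : ℝ[X]) (hf : f ≠ 0) (hco : IsCoprime f g) (h : MssNevan f g) :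
    ∃ a₀ : ℝ, a₀ ≠ 0 ∧ f = C a₀ * Lagrange.nodal f.roots.toFinset id := by
  classical
  have hdvd : Lagrange.nodal f.roots.toFinset id ∣ f := by
    rw [Lagrange.nodal_eq]
    apply Finset.prod_dvd_of_coprime
    · intro a _ b _ hab
      exact pairwise_coprime_X_sub_C (Function.injective_id) hab
    · intro y hy
      rw [Multiset.mem_toFinset, mem_roots hf] at hy
      exact dvd_iff_isRoot.mpr hy
  obtain ⟨e, he⟩ := hdvd
  have he0 : e ≠ 0 := by
    rintro rfl
    exact hf (by rw [he, mul_zero])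
  have hdeg : e.degree = 0 := by
    by_contra hne
    obtain ⟨z, hz⟩ := IsAlgClosed.exists_aeval_eq_zero ℂ e hne
    have hfz : aeval z f = 0 := by rw [he, map_mul, hz, mul_zero]
    have him := mss_root_real f g hf hco h z hfz
    obtain ⟨y, rfl⟩ : ∃ y : ℝ, (y : ℂ) = z := ⟨z.re, Complex.ext rfl (by simp [him])⟩
    have hey : e.IsRoot y := by
      have h1 : aeval (y : ℂ) e = ((e.eval y : ℝ) : ℂ) :=
        aeval_algebraMap_apply_eq_algebraMap_eval y e
      rw [h1] at hz
      exact_mod_cast hz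
    have hfy : f.IsRoot y := by
      rw [IsRoot, he, eval_mul, hey.eq_zero, mul_zero]
    have hyS : y ∈ f.roots.toFinset := by
      rw [Multiset.mem_toFinset, mem_roots hf]
      exact hfy
    have h2 : (X - C y) ^ 2 ∣ f := by
      rw [he, pow_two]
      exact mul_dvd_mul (Lagrange.X_sub_C_dvd_nodal id hyS) (dvd_iff_isRoot.mpr hey)
    have h3 := (le_rootMultiplicity_iff hf).mpr h2
    rw [mss_rootMultiplicity_eq_one f g hf hco h y hfy] at h3
    omega
  rw [eq_C_of_degree_eq_zero hdeg] at he he0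
  refine ⟨e.coeff 0, fun h0 => he0 (by rw [h0, C_0]), ?_⟩
  exact he.trans (mul_comm _ _)

/-- partial fractions over a product of distinct linear factors, polynomial form. -/
theorem mss_partial_fraction_poly (S : Finset ℝ) (g : ℝ[X]) :
    g = Lagrange.nodal S id * (g /ₘ Lagrange.nodal S id) +
      ∑ y ∈ S, C (g.eval y * Lagrange.nodalWeight S id y) * Lagrange.nodal (S.erase y) id := by
  classical
  set N := Lagrange.nodal S id with hN
  have hmon : N.Monic := Lagrange.nodal_monic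
  have hdeg : (g %ₘ N).degree < S.card := by
    have := degree_modByMonic_lt g hmon
    rwa [hN, Lagrange.degree_nodal] at this
  have hr : ∀ y ∈ S, (g %ₘ N).eval y = g.eval y := by
    intro y hy
    have h1 := congrArg (eval y) (modByMonic_add_div g N)
    have h2 : N.eval y = 0 := Lagrange.eval_nodal_at_node (v := id) hy
    simpa [h2] using h1
  have hint := Lagrange.eq_interpolate_of_eval_eq (r := fun y => g.eval y) (v := id)
    (s := S) (Function.injective_id.injOn) hdeg hr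
  have hsum : g %ₘ N =
      ∑ y ∈ S, C (g.eval y * Lagrange.nodalWeight S id y) * Lagrange.nodal (S.erase y) id := by
    rw [hint, Lagrange.interpolate_apply]
    refine Finset.sum_congr rfl fun y hy => ?_
    rw [Lagrange.basis_eq_prod_sub_inv_mul_nodal_div hy, ← Lagrange.nodal_erase_eq_nodal_div hy,
      C_mul, mul_assoc]
  calc g = g %ₘ N + N * (g /ₘ N) := (modByMonic_add_div g N).symm
    _ = _ := by rw [hsum, add_comm]

theorem mss_aeval_nodal (S : Finset ℝ) (z : ℂ) :
    aeval z (Lagrange.nodal S id) = ∏ y ∈ S, (z - (y : ℂ)) := by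
  rw [Lagrange.nodal_eq, map_prod]
  simp

/-- partial fractions, evaluated at a complex point. -/
theorem mss_partial_fraction_eval (S : Finset ℝ) (g : ℝ[X]) (a₀ : ℝ) (ha : a₀ ≠ 0) (z : ℂ)
    (hz : ∀ y ∈ S, z ≠ (y : ℂ)) :
    aeval z g / aeval z (C a₀ * Lagrange.nodal S id) =
      aeval z (C a₀⁻¹ * (g /ₘ Lagrange.nodal S id)) +
        ∑ y ∈ S, ((g.eval y * Lagrange.nodalWeight S id y / a₀ : ℝ) : ℂ) / (z - (y : ℂ)) := by
  classical
  have hNz : aeval z (Lagrange.nodal S id) ≠ 0 := by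
    rw [mss_aeval_nodal, Finset.prod_ne_zero_iff]
    exact fun y hy => sub_ne_zero.mpr (hz y hy)
  have hac : (a₀ : ℂ) ≠ 0 := by exact_mod_cast ha
  have h1 := congrArg (aeval z) (mss_partial_fraction_poly S g)
  rw [map_add, map_mul, map_sum] at h1
  rw [h1, map_mul, map_mul, aeval_C, aeval_C, add_div, Finset.sum_div]
  congr 1
  · simp only [Complex.coe_algebraMap, Complex.ofReal_inv]
    field_simp
  · refine Finset.sum_congr rfl fun y hy => ?_
    have h2 : aeval z (Lagrange.nodal S id) =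
        (z - (y : ℂ)) * aeval z (Lagrange.nodal (S.erase y) id) := by
      rw [Lagrange.nodal_eq_mul_nodal_erase hy, map_mul]
      simp
    have h3 : z - (y : ℂ) ≠ 0 := sub_ne_zero.mpr (hz y hy)
    have h4 : aeval z (Lagrange.nodal (S.erase y) id) ≠ 0 := by
      intro h0
      exact hNz (by rw [h2, h0, mul_zero])
    rw [h2, map_mul, aeval_C]
    simp only [Complex.coe_algebraMap]
    push_cast
    field_simp

theorem mss_aeval_eq_reverse (P : ℝ[X]) (z : ℂ) (hz : z ≠ 0) :
    aeval z P = aeval z⁻¹ (reverse P) * z ^ P.natDegree := by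
  let _ := invertibleOfNonzero hz
  have := eval₂_reverse_mul_pow (algebraMap ℝ ℂ) z P
  rw [invOf_eq_inv] at this
  simp only [aeval_def]
  exact this.symm

/-- asymptotics at infinity. -/
theorem mss_infty_asym (P : ℝ[X]) (S : Finset ℝ) (b : ℝ → ℝ)
    (h : ∀ z : ℂ, 0 < z.im → (aeval z P + ∑ y ∈ S, (b y : ℂ) / (z - (y : ℂ))).im ≤ 0)
    (u : ℂ) (hu : 0 < u.im) : ((P.leadingCoeff : ℂ) * u ^ P.natDegree).im ≤ 0 := by
  have hu0 : u ≠ 0 := by
    rintro rfl
    simp at hu
  set d := P.natDegree with hd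
  let ψ : ℝ → ℂ := fun t => aeval ((t : ℂ) / u) (reverse P) * u ^ d +
    (t : ℂ) ^ d * ∑ y ∈ S, (b y : ℂ) * (t : ℂ) / (u - (t : ℂ) * (y : ℂ))
  have hψc : ContinuousAt ψ 0 := by
    have h1 : Continuous (fun w : ℂ => aeval w (reverse P)) := by
      simpa using (Polynomial.continuous_aeval (reverse P) : Continuous fun w : ℂ => aeval w (reverse P))
    have h2 : ContinuousAt (fun t : ℝ => aeval ((t : ℂ) / u) (reverse P) * u ^ d) 0 := by
      have : Continuous (fun t : ℝ => aeval ((t : ℂ) / u) (reverse P) * u ^ d) :=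
        (h1.comp (by fun_prop)).mul continuous_const
      exact this.continuousAt
    refine h2.add (ContinuousAt.mul (by fun_prop) ?_)
    refine tendsto_finsetSum _ fun y _ => ?_
    refine ContinuousAt.div (by fun_prop) (by fun_prop) ?_
    simpa using hu0
  have hψ0 : ψ 0 = (P.leadingCoeff : ℂ) * u ^ d := by
    simp only [ψ, Complex.ofReal_zero, zero_div, mul_zero, Finset.sum_const_zero, add_zero]
    congr 1
    rw [← coeff_zero_eq_aeval_zero', coeff_zero_reverse]
    rfl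
  have hlim : Tendsto (fun t : ℝ => (ψ t).im) (𝓝[>] (0 : ℝ)) (𝓝 ((P.leadingCoeff : ℂ) * u ^ d).im) := by
    rw [← hψ0]
    exact ((Complex.continuous_im.continuousAt).comp hψc).tendsto.mono_left nhdsWithin_le_nhds
  refine le_of_tendsto hlim ?_
  filter_upwards [self_mem_nhdsWithin] with t ht
  have ht0 : (0 : ℝ) < t := ht
  have htc : (t : ℂ) ≠ 0 := by exact_mod_cast ht0.ne'
  have hz : 0 < (u / (t : ℂ)).im := by
    rw [Complex.div_ofReal_im]
    positivity
  have hz0 : u / (t : ℂ) ≠ 0 := div_ne_zero hu0 htc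
  have h3 := h _ hz
  have h4 : ψ t = ((t ^ d : ℝ) : ℂ) *
      (aeval (u / (t : ℂ)) P + ∑ y ∈ S, (b y : ℂ) / (u / (t : ℂ) - (y : ℂ))) := by
    rw [mss_aeval_eq_reverse P _ hz0, inv_div, mul_add, ← hd]
    simp only [ψ]
    congr 1
    · push_cast
      rw [div_pow]
      field_simp
    · push_cast
      congr 1
      refine Finset.sum_congr rfl fun y _ => ?_
      have : u / (t : ℂ) - (y : ℂ) = (u - (t : ℂ) * (y : ℂ)) / (t : ℂ) := by
        field_simp
      rw [this, div_div_eq_mul_div]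
  rw [h4, Complex.im_ofReal_mul]
  exact mul_nonpos_of_nonneg_of_nonpos (pow_pos ht0 d).le h3

/-- the polynomial part is affine with nonpositive slope. -/
theorem mss_poly_part (P : ℝ[X]) (S : Finset ℝ) (b : ℝ → ℝ)
    (h : ∀ z : ℂ, 0 < z.im → (aeval z P + ∑ y ∈ S, (b y : ℂ) / (z - (y : ℂ))).im ≤ 0) :
    ∃ a α : ℝ, 0 ≤ α ∧ P = C a - C α * X := by
  have key := mss_infty_asym P S b h
  rcases Nat.lt_or_ge P.natDegree 1 with hd | hd
  · refine ⟨P.coeff 0, 0, le_rfl, ?_⟩
    have : P.natDegree = 0 := by omega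
    rw [C_0, zero_mul, sub_zero]
    exact eq_C_of_natDegree_eq_zero this
  · obtain ⟨u, hu, hum⟩ := mss_exists_pow_eq_I _ hd
    have h1 := key u hu
    rw [hum] at h1
    have h1' : P.leadingCoeff ≤ 0 := by simpa using h1
    have hd1 : P.natDegree = 1 := by
      by_contra hne
      have hd2 : 2 ≤ P.natDegree := by omega
      obtain ⟨v, hv, hvm⟩ := mss_exists_pow_eq_neg_I _ hd2
      have h2 := key v hv
      rw [hvm] at h2
      have h2' : 0 ≤ P.leadingCoeff := by simpa using h2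
      have h0 : P.leadingCoeff = 0 := le_antisymm h1' h2'
      rw [leadingCoeff_eq_zero] at h0
      rw [h0] at hd
      simp at hd
    refine ⟨P.coeff 0, -P.coeff 1, ?_, ?_⟩
    · have : P.leadingCoeff = P.coeff 1 := by rw [leadingCoeff, hd1]
      rw [this] at h1'
      linarith
    · have := eq_X_add_C_of_natDegree_le_one hd1.le
      rw [C_neg]
      calc P = C (P.coeff 1) * X + C (P.coeff 0) := this
        _ = _ := by ring

/-- **Partial fractions**, complex form.  `g / f = a - α z + ∑ b_y / (z - y)` with `α ≥ 0`, `b_y > 0`,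
the `y` real roots of `f`. -/
theorem mss_nevan_repr_complex (f g : ℝ[X]) (hf : f ≠ 0) (h : MssNevan f g) :
    ∃ (α a : ℝ) (S : Finset ℝ) (b : ℝ → ℝ), 0 ≤ α ∧ (∀ y ∈ S, 0 < b y ∧ f.IsRoot y) ∧
      ∀ z : ℂ, aeval z f ≠ 0 →
        aeval z g / aeval z f = (a : ℂ) - (α : ℂ) * z + ∑ y ∈ S, (b y : ℂ) / (z - (y : ℂ)) := by
  classical
  obtain ⟨d, f₁, g₁, hd, hf₁, hg₁, hco, hN⟩ := mss_nevan_coprime f g hf h
  have hf₁0 : f₁ ≠ 0 := by
    rintro rfl
    exact hf (by rw [hf₁, mul_zero])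
  obtain ⟨a₀, ha₀, hsplit⟩ := mss_denominator_split f₁ g₁ hf₁0 hco hN
  set S := f₁.roots.toFinset with hS
  have hroot : ∀ y ∈ S, f₁.IsRoot y := by
    intro y hy
    rw [hS, Multiset.mem_toFinset, mem_roots hf₁0] at hy
    exact hy
  let b : ℝ → ℝ := fun y => g₁.eval y * Lagrange.nodalWeight S id y / a₀
  have hb : ∀ y ∈ S, 0 < b y := by
    intro y hy
    have hgy : g₁.eval y ≠ 0 := by
      obtain ⟨p, q, hpq⟩ := hco
      intro hg0
      have := congrArg (eval y) hpq
      simp [hg0, (hroot y hy).eq_zero] at this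
    have hw : eval y (Lagrange.nodal (S.erase y) id) ≠ 0 := by
      apply Lagrange.eval_nodal_not_at_node
      intro i hi
      exact (Finset.ne_of_mem_erase hi).symm
    have hfe : f₁ = (X - C y) ^ 1 * (C a₀ * Lagrange.nodal (S.erase y) id) := by
      conv_lhs => rw [hsplit, Lagrange.nodal_eq_mul_nodal_erase hy]
      simp only [id, pow_one]
      ring
    have := (mss_real_pole f₁ g₁ _ y 1 le_rfl hfe
      (by rw [eval_mul, eval_C]; exact mul_ne_zero ha₀ hw) hgy hN).2
    have hbe : b y = g₁.eval y / eval y (C a₀ * Lagrange.nodal (S.erase y) id) := by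
      simp only [b]
      rw [Lagrange.nodalWeight_eq_eval_nodal_erase_inv, eval_mul, eval_C]
      simp only [id]
      field_simp
    rw [hbe]
    exact this
  have hne_of : ∀ z : ℂ, aeval z f₁ ≠ 0 → ∀ y ∈ S, z ≠ (y : ℂ) := by
    rintro z hz y hy rfl
    apply hz
    have h1 : aeval (y : ℂ) f₁ = ((f₁.eval y : ℝ) : ℂ) :=
      aeval_algebraMap_apply_eq_algebraMap_eval y f₁
    rw [h1, (hroot y hy).eq_zero, Complex.ofReal_zero]
  have hpf : ∀ z : ℂ, aeval z f₁ ≠ 0 → aeval z g₁ / aeval z f₁ =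
      aeval z (C a₀⁻¹ * (g₁ /ₘ Lagrange.nodal S id)) + ∑ y ∈ S, (b y : ℂ) / (z - (y : ℂ)) := by
    intro z hz
    have := mss_partial_fraction_eval S g₁ a₀ ha₀ z (hne_of z hz)
    rw [← hsplit] at this
    exact this
  obtain ⟨a, α, hα, hP⟩ := mss_poly_part (C a₀⁻¹ * (g₁ /ₘ Lagrange.nodal S id)) S b (by
    intro z hz
    have hz1 : aeval z f₁ ≠ 0 := by
      intro h0
      have := mss_root_real f₁ g₁ hf₁0 hco hN z h0
      exact hz.ne' this
    rw [← hpf z hz1]
    exact hN z hz hz1)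
  refine ⟨α, a, S, b, hα, fun y hy => ⟨hb y hy, ?_⟩, ?_⟩
  · rw [IsRoot, hf₁, eval_mul, (hroot y hy).eq_zero, mul_zero]
  · intro z hz
    rw [hf₁, map_mul] at hz
    have hdz : aeval z d ≠ 0 := left_ne_zero_of_mul hz
    have hfz : aeval z f₁ ≠ 0 := right_ne_zero_of_mul hz
    rw [hf₁, hg₁, map_mul, map_mul, mul_div_mul_left _ _ hdz, hpf z hfz, hP]
    simp

/-- **Partial fractions.**  `g / f = a - α τ + ∑ b_y / (τ - y)` with `α ≥ 0`, `b_y > 0`, the `y` real
roots of `f`. -/
theorem mss_nevan_repr (f g : ℝ[X]) (hf : f ≠ 0) (h : MssNevan f g) :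
    ∃ (α a : ℝ) (S : Finset ℝ) (b : ℝ → ℝ), 0 ≤ α ∧ (∀ y ∈ S, 0 < b y ∧ f.IsRoot y) ∧
      ∀ τ : ℝ, f.eval τ ≠ 0 → g.eval τ / f.eval τ = a - α * τ + ∑ y ∈ S, b y / (τ - y) := by
  obtain ⟨α, a, S, b, hα, hb, hrep⟩ := mss_nevan_repr_complex f g hf h
  refine ⟨α, a, S, b, hα, hb, fun τ hτ => ?_⟩
  have h1 : aeval (τ : ℂ) f = ((f.eval τ : ℝ) : ℂ) := aeval_algebraMap_apply_eq_algebraMap_eval τ f
  have h2 : aeval (τ : ℂ) g = ((g.eval τ : ℝ) : ℂ) := aeval_algebraMap_apply_eq_algebraMap_eval τ g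
  have := hrep (τ : ℂ) (by rw [h1]; exact_mod_cast hτ)
  rw [h1, h2] at this
  exact_mod_cast this

end Claimed.Agent.R302
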