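/-
Row 302, package MSS (owner helper255; proofs of this file: helper107).  File 1b: consequences of the
partial fraction expansion used by the barrier method: monotone and convex to the right of all poles.
-/
import Claimed.Agent.R302.MSS.HerglotzRepr

set_option autoImplicit false

namespace Claimed.Agent.R302

open Polynomial

/-- the expansion to the right of all real roots of `f`, with the poles to the left of `τ₀`. -/
theorem mss_nevan_repr_right (f g : ℝ[X]) (h : MssNevan f g) {τ₀ : ℝ}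
    (hτ : ∀ τ, τ₀ ≤ τ → f.eval τ ≠ 0) :
    ∃ (α a : ℝ) (S : Finset ℝ) (b : ℝ → ℝ), 0 ≤ α ∧ (∀ y ∈ S, 0 < b y ∧ y < τ₀) ∧
      ∀ τ : ℝ, τ₀ ≤ τ → g.eval τ / f.eval τ = a - α * τ + ∑ y ∈ S, b y / (τ - y) := by
  have hf : f ≠ 0 := by
    rintro rfl
    exact hτ τ₀ le_rfl (by simp)
  obtain ⟨α, a, S, b, hα, hS, hrep⟩ := mss_nevan_repr f g hf h
  refine ⟨α, a, S, b, hα, fun y hy => ⟨(hS y hy).1, ?_⟩, fun τ hτ' => hrep τ (hτ τ hτ')⟩
  by_contra hcon
  exact hτ y (not_lt.mp hcon) (hS y hy).2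

/-- derivative of the expansion. -/
theorem mss_nevan_deriv_eq (f g : ℝ[X]) {τ₀ : ℝ} (hτ : ∀ τ, τ₀ ≤ τ → f.eval τ ≠ 0)
    {α a : ℝ} {S : Finset ℝ} {b : ℝ → ℝ} (hS : ∀ y ∈ S, y < τ₀)
    (hrep : ∀ τ : ℝ, τ₀ ≤ τ → g.eval τ / f.eval τ = a - α * τ + ∑ y ∈ S, b y / (τ - y))
    {t : ℝ} (ht : τ₀ < t) :
    ((derivative g).eval t * f.eval t - g.eval t * (derivative f).eval t) / (f.eval t) ^ 2 =
      -α - ∑ y ∈ S, b y / (t - y) ^ 2 := by
  have h1 : HasDerivAt (fun τ => g.eval τ / f.eval τ)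
      (((derivative g).eval t * f.eval t - g.eval t * (derivative f).eval t) / (f.eval t) ^ 2) t :=
    (g.hasDerivAt t).div (f.hasDerivAt t) (hτ t ht.le)
  have h2 : HasDerivAt (fun τ => a - α * τ + ∑ y ∈ S, b y / (τ - y))
      (-α - ∑ y ∈ S, b y / (t - y) ^ 2) t := by
    have hsum : HasDerivAt (fun τ => ∑ y ∈ S, b y / (τ - y)) (∑ y ∈ S, -(b y / (t - y) ^ 2)) t := by
      refine HasDerivAt.fun_sum fun y hy => ?_
      have hne : t - y ≠ 0 := by
        have := hS y hy
        intro h0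
        linarith
      have hd : HasDerivAt (fun τ : ℝ => τ - y) 1 t := (hasDerivAt_id t).sub_const y
      have := (hasDerivAt_const t (b y)).div hd hne
      have he : (0 * (t - y) - b y * 1) / (t - y) ^ 2 = -(b y / (t - y) ^ 2) := by ring
      rw [he] at this
      exact this
    have hlin : HasDerivAt (fun τ : ℝ => a - α * τ) (-α) t := by
      have := ((hasDerivAt_id t).const_mul α).const_sub a
      simpa using this
    have := hlin.add hsum
    have he : -α + ∑ y ∈ S, -(b y / (t - y) ^ 2) = -α - ∑ y ∈ S, b y / (t - y) ^ 2 := by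
      rw [Finset.sum_neg_distrib]
      ring
    rw [he] at this
    exact this
  have heq : (fun τ => g.eval τ / f.eval τ) =ᶠ[nhds t]
      fun τ => a - α * τ + ∑ y ∈ S, b y / (τ - y) := by
    filter_upwards [Ioi_mem_nhds ht] with τ hτ'
    exact hrep τ (le_of_lt hτ')
  exact h1.unique (h2.congr_of_eventuallyEq heq)

/-- monotonicity to the right of all real roots of `f`. -/
theorem mss_nevan_antitone (f g : ℝ[X]) (h : MssNevan f g) {τ₀ : ℝ}
    (hτ : ∀ τ, τ₀ ≤ τ → f.eval τ ≠ 0) {s t : ℝ} (hs : τ₀ ≤ s) (hst : s ≤ t) :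
    g.eval t / f.eval t ≤ g.eval s / f.eval s := by
  obtain ⟨α, a, S, b, hα, hS, hrep⟩ := mss_nevan_repr_right f g h hτ
  rw [hrep t (hs.trans hst), hrep s hs]
  have h1 : ∑ y ∈ S, b y / (t - y) ≤ ∑ y ∈ S, b y / (s - y) := by
    refine Finset.sum_le_sum fun y hy => ?_
    obtain ⟨hb, hy'⟩ := hS y hy
    exact div_le_div_of_nonneg_left hb.le (by linarith) (by linarith)
  have h2 : α * s ≤ α * t := mul_le_mul_of_nonneg_left hst hα
  linarith

/-- the derivative of `g / f` is nonpositive to the right of all real roots of `f`. -/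
theorem mss_nevan_deriv_nonpos (f g : ℝ[X]) (h : MssNevan f g) {τ₀ : ℝ}
    (hτ : ∀ τ, τ₀ ≤ τ → f.eval τ ≠ 0) {t : ℝ} (ht : τ₀ < t) :
    ((derivative g).eval t * f.eval t - g.eval t * (derivative f).eval t) / (f.eval t) ^ 2 ≤ 0 := by
  obtain ⟨α, a, S, b, hα, hS, hrep⟩ := mss_nevan_repr_right f g h hτ
  rw [mss_nevan_deriv_eq f g hτ (fun y hy => (hS y hy).2) hrep ht]
  have : 0 ≤ ∑ y ∈ S, b y / (t - y) ^ 2 :=
    Finset.sum_nonneg fun y hy => div_nonneg (hS y hy).1.le (sq_nonneg _)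
  linarith

/-- convexity to the right of all real roots of `f`: the graph lies above its tangent at `t`. -/
theorem mss_nevan_convex (f g : ℝ[X]) (h : MssNevan f g) {τ₀ : ℝ}
    (hτ : ∀ τ, τ₀ ≤ τ → f.eval τ ≠ 0) {s t : ℝ} (hs : τ₀ ≤ s) (hst : s < t) :
    g.eval t / f.eval t + (s - t) *
        (((derivative g).eval t * f.eval t - g.eval t * (derivative f).eval t) / (f.eval t) ^ 2) ≤
      g.eval s / f.eval s := by
  obtain ⟨α, a, S, b, hα, hS, hrep⟩ := mss_nevan_repr_right f g h hτ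
  rw [mss_nevan_deriv_eq f g hτ (fun y hy => (hS y hy).2) hrep (lt_of_le_of_lt hs hst),
    hrep t (hs.trans hst.le), hrep s hs]
  have hterm : ∑ y ∈ S, (b y / (t - y) + (t - s) * (b y / (t - y) ^ 2)) ≤
      ∑ y ∈ S, b y / (s - y) := by
    refine Finset.sum_le_sum fun y hy => ?_
    obtain ⟨hb, hy'⟩ := hS y hy
    have hu : 0 < s - y := by linarith
    have hv : 0 < t - y := by linarith
    have he : b y / (t - y) + (t - s) * (b y / (t - y) ^ 2) =
        b y * ((t - y) + (t - s)) / (t - y) ^ 2 := by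
      field_simp
    rw [he, div_le_div_iff₀ (by positivity) hu]
    have hkey : 0 ≤ b y * ((t - y) - (s - y)) ^ 2 := by positivity
    nlinarith [hkey]
  rw [Finset.sum_add_distrib, ← Finset.mul_sum] at hterm
  nlinarith [hterm]

end Claimed.Agent.R302
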