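/-
Row 302, package MSS (owner helper255; proofs of this file: helper107).  File 2: real stable
polynomials: definition, logarithmic derivatives, closure under `1 - ∂_j`, restriction to real lines
with nonnegative direction.
-/
import Claimed.Agent.R302.MSS.Herglotz

set_option autoImplicit false

namespace Claimed.Agent.R302

open MvPolynomial

variable {ι : Type*}

/-- real stability (nonvanishing on the product of upper half planes). -/
def MssStable (q : MvPolynomial ι ℝ) : Prop :=
  ∀ z : ι → ℂ, (∀ i, 0 < (z i).im) → aeval z q ≠ 0

/-! ### generic restriction to a line -/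

section generic

variable {A : Type*} [CommRing A] [Algebra ℝ A]

/-- evaluation of the restriction to a line (generic coefficient algebra). -/
theorem mss_lineG_eval (x s : ι → A) (q : MvPolynomial ι ℝ) (τ : A) :
    (aeval (fun k => Polynomial.C (x k) + Polynomial.C (s k) * Polynomial.X) q :
      Polynomial A).eval τ = aeval (fun k => x k + s k * τ) q := by
  induction q using MvPolynomial.induction_on with
  | C a =>
    simp only [MvPolynomial.algHom_C, Polynomial.algebraMap_apply, Polynomial.eval_C]
  | add p q hp hq => simp only [map_add, Polynomial.eval_add, hp, hq]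
  | mul_X p i hp =>
    simp only [map_mul, aeval_X, Polynomial.eval_mul, hp, Polynomial.eval_add, Polynomial.eval_C,
      Polynomial.eval_X]

/-- chain rule for the restriction to a line (generic coefficient algebra). -/
theorem mss_lineG_derivative [Fintype ι] (x s : ι → A) (q : MvPolynomial ι ℝ) :
    Polynomial.derivative
        (aeval (fun k => Polynomial.C (x k) + Polynomial.C (s k) * Polynomial.X) q :
          Polynomial A) =
      ∑ k, Polynomial.C (s k) *
        aeval (fun k => Polynomial.C (x k) + Polynomial.C (s k) * Polynomial.X) (pderiv k q) := by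
  classical
  induction q using MvPolynomial.induction_on with
  | C a =>
    simp only [MvPolynomial.algHom_C, Polynomial.algebraMap_apply, Polynomial.derivative_C,
      pderiv_C, map_zero, mul_zero, Finset.sum_const_zero]
  | add p q hp hq =>
    simp only [map_add, hp, hq, mul_add, Finset.sum_add_distrib]
  | mul_X p i hp =>
    have h1 : ∀ k, Polynomial.C (s k) *
        aeval (fun k => Polynomial.C (x k) + Polynomial.C (s k) * Polynomial.X)
          (pderiv k (p * X i)) =
        (Polynomial.C (s k) *
          aeval (fun k => Polynomial.C (x k) + Polynomial.C (s k) * Polynomial.X) (pderiv k p)) *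
            (Polynomial.C (x i) + Polynomial.C (s i) * Polynomial.X) +
        aeval (fun k => Polynomial.C (x k) + Polynomial.C (s k) * Polynomial.X) p *
          (if k = i then Polynomial.C (s i) else 0) := by
      intro k
      rw [pderiv_mul, map_add, map_mul, map_mul, aeval_X, pderiv_X]
      by_cases hk : k = i
      · subst hk
        simp only [Pi.single_eq_same, map_one, if_true]
        ring
      · simp only [Pi.single_eq_of_ne (Ne.symm hk), map_zero, if_neg hk]
        ring
    rw [Finset.sum_congr rfl fun k _ => h1 k, Finset.sum_add_distrib, ← Finset.sum_mul, ← hp,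
      ← Finset.mul_sum, Finset.sum_ite_eq' Finset.univ i, if_pos (Finset.mem_univ i), map_mul,
      aeval_X, Polynomial.derivative_mul]
    congr 1
    simp only [Polynomial.derivative_add, Polynomial.derivative_C, Polynomial.derivative_mul,
      Polynomial.derivative_X, mul_one, zero_add, zero_mul]

/-- chain rule for the restriction to a coordinate line (no finiteness needed). -/
theorem mss_lineG_derivative_single [DecidableEq ι] (x : ι → A) (i : ι) (q : MvPolynomial ι ℝ) :
    Polynomial.derivative
        (aeval (fun k => Polynomial.C (x k) + Polynomial.C ((Pi.single i (1 : A) : ι → A) k) * Polynomial.X) q :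
          Polynomial A) =
      aeval (fun k => Polynomial.C (x k) + Polynomial.C ((Pi.single i (1 : A) : ι → A) k) * Polynomial.X)
        (pderiv i q) := by
  induction q using MvPolynomial.induction_on with
  | C a =>
    simp only [MvPolynomial.algHom_C, Polynomial.algebraMap_apply, Polynomial.derivative_C,
      pderiv_C, map_zero]
  | add p q hp hq => simp only [map_add, hp, hq]
  | mul_X p j hp =>
    simp only [map_mul, aeval_X, Polynomial.derivative_mul, hp, pderiv_mul, map_add,
      Polynomial.derivative_C, Polynomial.derivative_X, mul_one,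
      zero_add, pderiv_X, zero_mul]
    congr 1
    by_cases hji : j = i
    · subst hji
      simp only [Pi.single_eq_same, map_one]
    · simp only [Pi.single_eq_of_ne hji, map_zero]

end generic

/-- a univariate complex polynomial all of whose roots lie in the open lower half plane:
the logarithmic derivative at `0` is zero or has negative imaginary part. -/
theorem mss_logderiv_univariate (r : Polynomial ℂ) (h : ∀ ρ : ℂ, 0 ≤ ρ.im → r.eval ρ ≠ 0) :
    r.derivative.eval 0 = 0 ∨ (r.derivative.eval 0 / r.eval 0).im < 0 := by
  have h0 : r.eval 0 ≠ 0 := h 0 (by simp)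
  have hr : r ≠ 0 := by
    rintro rfl
    simp at h0
  have hsplit := (IsAlgClosed.splits r).eval_derivative_div_eval_of_ne_zero h0
  by_cases hroots : r.roots = 0
  · left
    rw [hroots] at hsplit
    simp only [Multiset.map_zero, Multiset.sum_zero] at hsplit
    rcases div_eq_zero_iff.mp hsplit with h1 | h1
    · exact h1
    · exact absurd h1 h0
  · right
    rw [hsplit]
    have hterm : ∀ ρ ∈ r.roots, (1 / (0 - ρ)).im < 0 := by
      intro ρ hρ
      have hρ0 : r.eval ρ = 0 := (Polynomial.mem_roots hr).mp hρ
      have him : ρ.im < 0 := by
        by_contra hcon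
        exact h ρ (not_lt.mp hcon) hρ0
      have hne : ρ ≠ 0 := by
        rintro rfl
        simp at him
      rw [zero_sub, one_div, Complex.inv_im]
      have hpos : 0 < Complex.normSq (-ρ) := Complex.normSq_pos.mpr (neg_ne_zero.mpr hne)
      simp only [Complex.neg_im, neg_neg]
      exact div_neg_of_neg_of_pos him hpos
    -- sum of a nonempty multiset of numbers with negative imaginary part
    have hsum : ∀ (m : Multiset ℂ), m ≠ 0 → (∀ ρ ∈ m, (1 / (0 - ρ)).im < 0) →
        ((m.map fun z => 1 / (0 - z)).sum).im < 0 := by
      intro m
      induction m using Multiset.induction_on with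
      | empty => intro h; exact absurd rfl h
      | cons a m ih =>
        intro _ hm
        rw [Multiset.map_cons, Multiset.sum_cons, Complex.add_im]
        have ha := hm a (Multiset.mem_cons_self a m)
        by_cases hm0 : m = 0
        · subst hm0
          simpa using ha
        · have := ih hm0 (fun ρ hρ => hm ρ (Multiset.mem_cons_of_mem hρ))
          linarith
    exact hsum _ hroots hterm

/-- logarithmic derivative in the open region: zero or strictly negative imaginary part. -/
theorem mss_stable_logderiv {q : MvPolynomial ι ℝ} (hq : MssStable q) (z : ι → ℂ)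
    (hz : ∀ i, 0 < (z i).im) (i : ι) :
    aeval z (pderiv i q) = 0 ∨ (aeval z (pderiv i q) / aeval z q).im < 0 := by
  classical
  set f : ι → Polynomial ℂ := fun k => Polynomial.C (z k) + Polynomial.C ((Pi.single i (1 : ℂ) : ι → ℂ) k) *
    Polynomial.X with hf
  have heval : ∀ (p : MvPolynomial ι ℝ) (τ : ℂ),
      (aeval f p : Polynomial ℂ).eval τ = aeval (fun k => z k + (Pi.single i (1 : ℂ) : ι → ℂ) k * τ) p :=
    fun p τ => mss_lineG_eval z (Pi.single i 1) p τ
  have hder : Polynomial.derivative (aeval f q : Polynomial ℂ) = aeval f (pderiv i q) :=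
    mss_lineG_derivative_single z i q
  have h0 : ∀ p : MvPolynomial ι ℝ, (aeval f p : Polynomial ℂ).eval 0 = aeval z p := by
    intro p
    rw [heval]
    simp only [mul_zero, add_zero]
  have hroot : ∀ ρ : ℂ, 0 ≤ ρ.im → (aeval f q : Polynomial ℂ).eval ρ ≠ 0 := by
    intro ρ hρ
    rw [heval]
    refine hq _ fun k => ?_
    by_cases hk : k = i
    · subst hk
      simp only [Pi.single_eq_same, one_mul, Complex.add_im]
      linarith [hz k]
    · simp only [Pi.single_eq_of_ne hk, zero_mul, add_zero]
      exact hz k
  have := mss_logderiv_univariate (aeval f q) hroot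
  rwa [hder, h0, h0] at this

/-- `1 - ∂_j` preserves real stability. -/
theorem mss_stable_sub_pderiv {q : MvPolynomial ι ℝ} (hq : MssStable q) (j : ι) :
    MssStable (q - pderiv j q) := by
  intro z hz h0
  have hne := hq z hz
  rw [map_sub, sub_eq_zero] at h0
  rcases mss_stable_logderiv hq z hz j with h | h
  · exact hne (h0.trans h)
  · rw [← h0, div_self hne] at h
    simp at h

/-- continuity of `aeval` in the point. -/
theorem mss_continuous_aeval (q : MvPolynomial ι ℝ) :
    Continuous fun z : ι → ℂ => aeval z q := by
  have : (fun z : ι → ℂ => aeval z q) = fun z => eval z (map (algebraMap ℝ ℂ) q) := by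
    funext z
    rw [aeval_def, eval₂_eq_eval_map]
  rw [this]
  exact MvPolynomial.continuous_eval _

/-- logarithmic derivative in the closed region (limit of the open case). -/
theorem mss_stable_logderiv_closed [Finite ι] {q : MvPolynomial ι ℝ} (hq : MssStable q) (z : ι → ℂ)
    (hz : ∀ i, 0 ≤ (z i).im) (hne : aeval z q ≠ 0) (i : ι) :
    (aeval z (pderiv i q) / aeval z q).im ≤ 0 := by
  -- the path `η ↦ z + i η`
  set γ : ℝ → ι → ℂ := fun η k => z k + (η : ℂ) * Complex.I with hγ
  have hγc : Continuous γ := by
    refine continuous_pi fun k => ?_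
    exact continuous_const.add (Complex.continuous_ofReal.mul continuous_const)
  have hγ0 : γ 0 = z := by
    funext k
    simp [hγ]
  have hF : ContinuousAt (fun η : ℝ => (aeval (γ η) (pderiv i q) / aeval (γ η) q).im) 0 := by
    refine Complex.continuous_im.continuousAt.comp ?_
    refine ContinuousAt.div ?_ ?_ ?_
    · exact ((mss_continuous_aeval (pderiv i q)).comp hγc).continuousAt
    · exact ((mss_continuous_aeval q).comp hγc).continuousAt
    · rw [hγ0]; exact hne
  have hlim : Filter.Tendsto (fun η : ℝ => (aeval (γ η) (pderiv i q) / aeval (γ η) q).im)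
      (nhdsWithin 0 (Set.Ioi 0)) (nhds ((aeval z (pderiv i q) / aeval z q).im)) := by
    have := hF.tendsto
    rw [hγ0] at this
    exact this.mono_left nhdsWithin_le_nhds
  refine le_of_tendsto hlim ?_
  filter_upwards [self_mem_nhdsWithin] with η hη
  have hη' : (0 : ℝ) < η := hη
  have hpos : ∀ k, 0 < (γ η k).im := by
    intro k
    simp only [hγ, Complex.add_im, Complex.mul_im, Complex.ofReal_re, Complex.I_im, mul_one,
      Complex.ofReal_im, Complex.I_re, mul_zero, add_zero]
    linarith [hz k]
  rcases mss_stable_logderiv hq (γ η) hpos i with h | h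
  · rw [h, zero_div]; simp
  · exact h.le

/-- restriction of a polynomial to the line `τ ↦ x + τ s`. -/
noncomputable def mssLine (x s : ι → ℝ) : MvPolynomial ι ℝ →ₐ[ℝ] Polynomial ℝ :=
  aeval (fun k => Polynomial.C (x k) + Polynomial.C (s k) * Polynomial.X)

theorem mssLine_eval (x s : ι → ℝ) (q : MvPolynomial ι ℝ) (τ : ℝ) :
    (mssLine x s q).eval τ = eval (fun k => x k + s k * τ) q := by
  rw [mssLine, mss_lineG_eval, aeval_def]
  rfl

theorem mssLine_aeval (x s : ι → ℝ) (q : MvPolynomial ι ℝ) (τ : ℂ) :
    Polynomial.aeval τ (mssLine x s q) = aeval (fun k => (x k : ℂ) + (s k : ℂ) * τ) q := by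
  induction q using MvPolynomial.induction_on with
  | C a =>
    simp only [MvPolynomial.algHom_C, Polynomial.algebraMap_apply, Polynomial.aeval_C,
      Algebra.algebraMap_self, RingHom.id_apply]
  | add p q hp hq => simp only [map_add, hp, hq]
  | mul_X p i hp =>
    simp only [map_mul, hp, aeval_X]
    congr 1
    simp only [mssLine, aeval_X, map_add, map_mul, Polynomial.aeval_C, Polynomial.aeval_X,
      Complex.coe_algebraMap]

theorem mssLine_derivative [Fintype ι] (x s : ι → ℝ) (q : MvPolynomial ι ℝ) :
    Polynomial.derivative (mssLine x s q) =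
      ∑ k, Polynomial.C (s k) * mssLine x s (pderiv k q) :=
  mss_lineG_derivative x s q

/-- along a real line with nonnegative direction, `∂_i q / q` is of the class of file 1. -/
theorem mss_nevan_line [Finite ι] {q : MvPolynomial ι ℝ} (hq : MssStable q) (x s : ι → ℝ)
    (hs : ∀ k, 0 ≤ s k) (i : ι) :
    MssNevan (mssLine x s q) (mssLine x s (pderiv i q)) := by
  intro τ hτ hne
  rw [mssLine_aeval] at hne ⊢
  rw [mssLine_aeval]
  refine mss_stable_logderiv_closed hq _ (fun k => ?_) hne i
  simp only [Complex.add_im, Complex.ofReal_im, Complex.mul_im, Complex.ofReal_re, zero_mul,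
    add_zero, zero_add]
  exact mul_nonneg (hs k) hτ.le

end Claimed.Agent.R302
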