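/-
Row 302, package MSS (owner helper255).  File 3: the multivariate barrier argument
(Marcus-Spielman-Srivastava, Interlacing families II, Section 5), abstract form.
-/
import Claimed.Agent.R302.MSS.Stable

set_option autoImplicit false

namespace Claimed.Agent.R302

open MvPolynomial

variable {ι : Type*}

/-- `x` is above the roots of `q`. -/
def MssAbove (q : MvPolynomial ι ℝ) (x : ι → ℝ) : Prop :=
  ∀ s : ι → ℝ, (∀ i, 0 ≤ s i) → 0 < eval (x + s) q

/-- the barrier function `∂_i q / q`. -/
noncomputable def mssPhi (q : MvPolynomial ι ℝ) (i : ι) (x : ι → ℝ) : ℝ :=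
  eval x (pderiv i q) / eval x q

/-- the operator `1 - ∂_j`. -/
noncomputable def mssOp (j : ι) (q : MvPolynomial ι ℝ) : MvPolynomial ι ℝ := q - pderiv j q

theorem MssAbove.pos {q : MvPolynomial ι ℝ} {x : ι → ℝ} (h : MssAbove q x) : 0 < eval x q := by
  simpa using h 0 (fun _ => le_rfl)

theorem MssAbove.add {q : MvPolynomial ι ℝ} {x : ι → ℝ} (h : MssAbove q x) {s : ι → ℝ}
    (hs : ∀ i, 0 ≤ s i) : MssAbove q (x + s) := by
  intro u hu
  rw [add_assoc]
  exact h (s + u) (fun i => add_nonneg (hs i) (hu i))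

/-- monotonicity of the barrier functions above the roots. -/
theorem mss_phi_antitone [Finite ι] {q : MvPolynomial ι ℝ} (hq : MssStable q) {x : ι → ℝ}
    (hx : MssAbove q x) {s : ι → ℝ} (hs : ∀ k, 0 ≤ s k) (i : ι) :
    mssPhi q i (x + s) ≤ mssPhi q i x := by
  have hne : ∀ τ : ℝ, 0 ≤ τ → (mssLine x s q).eval τ ≠ 0 := by
    intro τ hτ
    rw [mssLine_eval]
    have := hx (fun k => s k * τ) (fun k => mul_nonneg (hs k) hτ)
    exact ne_of_gt this
  have h := mss_nevan_antitone _ _ (mss_nevan_line hq x s hs i) hne (le_refl (0 : ℝ)) zero_le_one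
  simp only [mssLine_eval, mul_one, mul_zero, add_zero] at h
  exact h

/-- MSS Lemma 5.9. -/
theorem mss_above_op [Finite ι] {q : MvPolynomial ι ℝ} (hq : MssStable q) {x : ι → ℝ}
    (hx : MssAbove q x) (j : ι) (hφ : mssPhi q j x < 1) : MssAbove (mssOp j q) x := by
  intro s hs
  have h1 := mss_phi_antitone hq hx hs j
  have hpos := hx s hs
  have h2 : mssPhi q j (x + s) < 1 := lt_of_le_of_lt h1 hφ
  unfold mssPhi at h2
  rw [div_lt_one hpos] at h2
  simp only [mssOp, map_sub]
  linarith

theorem mss_pderiv_comm {R : Type*} [CommRing R] (i j : ι) (q : MvPolynomial ι R) :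
    pderiv i (pderiv j q) = pderiv j (pderiv i q) := by
  classical
  have h : ⁅(pderiv i : Derivation R (MvPolynomial ι R) (MvPolynomial ι R)),
      (pderiv j : Derivation R (MvPolynomial ι R) (MvPolynomial ι R))⁆ = 0 := by
    apply MvPolynomial.derivation_ext
    intro k
    rw [Derivation.commutator_apply]
    simp only [pderiv_X, Derivation.coe_zero, Pi.zero_apply]
    have h1 : ∀ a b : ι, pderiv a ((Pi.single b 1 : ι → MvPolynomial ι R) k) = 0 := by
      intro a b
      by_cases hb : k = b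
      · subst hb
        simp
      · rw [Pi.single_eq_of_ne hb]
        simp
    rw [h1, h1, sub_zero]
  have h2 := congrArg (fun D => D q) h
  simp only [Derivation.commutator_apply, Derivation.coe_zero, Pi.zero_apply] at h2
  exact sub_eq_zero.mp h2

/-- derivative along the coordinate line in direction `e_j`. -/
theorem mssLine_single_derivative [Fintype ι] [DecidableEq ι] (x : ι → ℝ) (j : ι)
    (q : MvPolynomial ι ℝ) :
    Polynomial.derivative (mssLine x (Pi.single j 1) q) =
      mssLine x (Pi.single j 1) (pderiv j q) := by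
  rw [mssLine_derivative, Finset.sum_eq_single j]
  · simp
  · intro k _ hk
    rw [Pi.single_eq_of_ne hk]
    simp
  · intro h
    exact (h (Finset.mem_univ j)).elim

theorem mssLine_single_eval [DecidableEq ι] (x : ι → ℝ) (j : ι) (q : MvPolynomial ι ℝ) (τ : ℝ) :
    (mssLine x (Pi.single j 1) q).eval τ = eval (x + Pi.single j τ) q := by
  rw [mssLine_eval]
  have : (fun k => x k + (Pi.single j 1 : ι → ℝ) k * τ) = x + Pi.single j τ := by
    funext k
    by_cases hk : k = j
    · subst hk
      simp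
    · simp [Pi.single_eq_of_ne hk]
  rw [this]

theorem mssLine_single_ne_zero [DecidableEq ι] {q : MvPolynomial ι ℝ} {x : ι → ℝ}
    (hx : MssAbove q x) (j : ι) (τ : ℝ) (hτ : 0 ≤ τ) :
    (mssLine x (Pi.single j 1) q).eval τ ≠ 0 := by
  rw [mssLine_single_eval]
  refine ne_of_gt (hx _ fun k => ?_)
  by_cases hk : k = j
  · subst hk
    simpa using hτ
  · simp [Pi.single_eq_of_ne hk]

theorem mss_single_nonneg [DecidableEq ι] (j : ι) {δ : ℝ} (hδ : 0 ≤ δ) (k : ι) :
    0 ≤ (Pi.single j δ : ι → ℝ) k := by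
  by_cases hk : k = j
  · subst hk
    simpa using hδ
  · simp [Pi.single_eq_of_ne hk]

/-- the mixed derivative of `log q`, i.e. `∂_j (∂_i q / q)`. -/
noncomputable def mssPhiD (q : MvPolynomial ι ℝ) (i j : ι) (x : ι → ℝ) : ℝ :=
  (eval x (pderiv j (pderiv i q)) * eval x q - eval x (pderiv i q) * eval x (pderiv j q)) /
    (eval x q) ^ 2

/-- `∂_j Φ^i ≤ 0` strictly inside the region above the roots. -/
theorem mss_phiD_nonpos [Fintype ι] [DecidableEq ι] {q : MvPolynomial ι ℝ} (hq : MssStable q)
    {x : ι → ℝ} (hx : MssAbove q x) (i j : ι) {δ : ℝ} (hδ : 0 < δ) :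
    mssPhiD q i j (x + Pi.single j δ) ≤ 0 := by
  have h := mss_nevan_deriv_nonpos _ _
    (mss_nevan_line hq x (Pi.single j 1) (mss_single_nonneg j zero_le_one) i)
    (mssLine_single_ne_zero hx j) hδ
  simp only [mssLine_single_derivative, mssLine_single_eval] at h
  exact h

/-- convexity of the barrier function in the direction `e_j`. -/
theorem mss_phi_convex [Fintype ι] [DecidableEq ι] {q : MvPolynomial ι ℝ} (hq : MssStable q)
    {x : ι → ℝ} (hx : MssAbove q x) (i j : ι) {δ : ℝ} (hδ : 0 < δ) :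
    mssPhi q i (x + Pi.single j δ) - δ * mssPhiD q i j (x + Pi.single j δ) ≤ mssPhi q i x := by
  have h := mss_nevan_convex _ _
    (mss_nevan_line hq x (Pi.single j 1) (mss_single_nonneg j zero_le_one) i)
    (mssLine_single_ne_zero hx j) (le_refl (0 : ℝ)) hδ
  simp only [mssLine_single_derivative, mssLine_single_eval, Pi.single_zero, add_zero] at h
  unfold mssPhi mssPhiD
  linarith

/-- MSS Lemma 5.10/5.11: one step of the barrier argument. -/
theorem mss_barrier_step [Fintype ι] [DecidableEq ι] {q : MvPolynomial ι ℝ} (hq : MssStable q)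
    {x : ι → ℝ} (hx : MssAbove q x) (j : ι) {δ : ℝ} (hδ : 0 < δ)
    (hφ : mssPhi q j x ≤ 1 - 1 / δ) :
    MssAbove (mssOp j q) (x + Pi.single j δ) ∧
      ∀ i, mssPhi (mssOp j q) i (x + Pi.single j δ) ≤ mssPhi q i x := by
  have hδinv : 0 < 1 / δ := by positivity
  have habove : MssAbove (mssOp j q) (x + Pi.single j δ) :=
    (mss_above_op hq hx j (by linarith)).add (mss_single_nonneg j hδ.le)
  refine ⟨habove, fun i => ?_⟩
  have hD := mss_phiD_nonpos hq hx i j hδ
  have hconv := mss_phi_convex hq hx i j hδ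
  have hmono := mss_phi_antitone hq hx (mss_single_nonneg j hδ.le) j
  have hQ : 0 < eval (x + Pi.single j δ) q := hx _ (mss_single_nonneg j hδ.le)
  have hQ' : 0 < eval (x + Pi.single j δ) (mssOp j q) := habove.pos
  set x' := x + Pi.single j δ with hx'
  set Q := eval x' q with hQdef
  set Qi := eval x' (pderiv i q) with hQi
  set Qj := eval x' (pderiv j q) with hQj
  set Qij := eval x' (pderiv j (pderiv i q)) with hQij
  have e1 : eval x' (mssOp j q) = Q - Qj := by simp [mssOp, hQdef, hQj]
  have e2 : eval x' (pderiv i (mssOp j q)) = Qi - Qij := by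
    simp only [mssOp, map_sub, hQi, hQij]
    rw [mss_pderiv_comm i j q]
  have hφj : mssPhi q j x' = Qj / Q := rfl
  have hφi : mssPhi q i x' = Qi / Q := rfl
  have hDdef : mssPhiD q i j x' = (Qij * Q - Qi * Qj) / Q ^ 2 := rfl
  rw [e1] at hQ'
  have hgoal : mssPhi (mssOp j q) i x' = Qi / Q - ((Qij * Q - Qi * Qj) / Q ^ 2) / (1 - Qj / Q) := by
    unfold mssPhi
    rw [e1, e2]
    have h1 : (1 - Qj / Q) ≠ 0 := by
      have : 1 - Qj / Q = (Q - Qj) / Q := by field_simp
      rw [this]
      exact (div_pos hQ' hQ).ne'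
    have h2 : Q - Qj ≠ 0 := hQ'.ne'
    have h3 : 1 - Qj / Q = (Q - Qj) / Q := by field_simp
    rw [h3]
    field_simp
    ring
  rw [hgoal]
  rw [hφi, hDdef] at hconv
  rw [hDdef] at hD
  rw [hφj] at hmono
  set D := (Qij * Q - Qi * Qj) / Q ^ 2 with hDD
  have h4 : 1 / δ ≤ 1 - Qj / Q := by linarith
  have h5 : 1 / (1 - Qj / Q) ≤ δ := by
    have := one_div_le_one_div_of_le hδinv h4
    simpa using this
  have h6 : -(D / (1 - Qj / Q)) ≤ -(δ * D) := by
    have : D / (1 - Qj / Q) = (1 / (1 - Qj / Q)) * D := by ring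
    rw [this]
    nlinarith
  linarith

/-- iteration of the barrier step along a list of variables. -/
theorem mss_barrier_list [Fintype ι] [DecidableEq ι] {q : MvPolynomial ι ℝ} (hq : MssStable q)
    {x : ι → ℝ} (hx : MssAbove q x) {δ : ℝ} (hδ : 0 < δ)
    (hφ : ∀ i, mssPhi q i x ≤ 1 - 1 / δ) (l : List ι) :
    MssStable (l.foldr mssOp q) ∧
      MssAbove (l.foldr mssOp q) (x + (l.map fun j => Pi.single j δ).sum) ∧
      ∀ i, mssPhi (l.foldr mssOp q) i (x + (l.map fun j => Pi.single j δ).sum) ≤ 1 - 1 / δ := by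
  induction l with
  | nil =>
    simp only [List.foldr_nil, List.map_nil, List.sum_nil, add_zero]
    exact ⟨hq, hx, hφ⟩
  | cons j l ih =>
    obtain ⟨h1, h2, h3⟩ := ih
    have hstep := mss_barrier_step h1 h2 j hδ (h3 j)
    have hpt : x + ((j :: l).map fun j => Pi.single j δ).sum =
        x + (l.map fun j => Pi.single j δ).sum + Pi.single j δ := by
      simp only [List.map_cons, List.sum_cons]
      abel
    simp only [List.foldr_cons]
    rw [hpt]
    exact ⟨mss_stable_sub_pderiv h1 j, hstep.1, fun i => (hstep.2 i).trans (h3 i)⟩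

/-- all variables processed once: the point `x + δ` is above the roots. -/
theorem mss_barrier_univ [Fintype ι] [DecidableEq ι] {q : MvPolynomial ι ℝ} (hq : MssStable q)
    {x : ι → ℝ} (hx : MssAbove q x) {δ : ℝ} (hδ : 0 < δ)
    (hφ : ∀ i, mssPhi q i x ≤ 1 - 1 / δ) :
    MssAbove ((Finset.univ : Finset ι).toList.foldr mssOp q) (fun i => x i + δ) := by
  have h := (mss_barrier_list hq hx hδ hφ (Finset.univ : Finset ι).toList).2.1
  have hsum : ((Finset.univ : Finset ι).toList.map fun j => (Pi.single j δ : ι → ℝ)).sum =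
      fun _ => δ := by
    rw [Finset.sum_map_toList]
    exact Finset.univ_sum_single (fun _ => δ)
  rw [hsum] at h
  exact h

end Claimed.Agent.R302
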