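/-
Row 302, package MSS (owner helper255; proofs of this file: helper107).  File 4: the determinantal
polynomial `det (∑ y_i A_i - W)`: evaluation, Jacobi formula, rank one averaging.
-/
import Claimed.Agent.R302.MSS.Barrier

set_option autoImplicit false

namespace Claimed.Agent.R302

open MvPolynomial Matrix
open scoped ComplexOrder

variable {ι κ n : Type*} [Fintype ι] [Fintype κ] [Fintype n] [DecidableEq n]

/-- the pencil `∑ y_i A_i - W` as a matrix of polynomials. -/
noncomputable def mssPencil (A : ι → Matrix n n ℂ) (W : Matrix n n ℂ) :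
    Matrix n n (MvPolynomial ι ℂ) :=
  ∑ i, (X i : MvPolynomial ι ℂ) • (A i).map C - W.map C

/-- `det (∑ y_i A_i - W)` as a polynomial in `y`. -/
noncomputable def mssDetC (A : ι → Matrix n n ℂ) (W : Matrix n n ℂ) : MvPolynomial ι ℂ :=
  (mssPencil A W).det

omit [Fintype n] [DecidableEq n] in
theorem mssPencil_apply (A : ι → Matrix n n ℂ) (W : Matrix n n ℂ) (a b : n) :
    mssPencil A W a b = ∑ i, (X i : MvPolynomial ι ℂ) * C (A i a b) - C (W a b) := by
  simp only [mssPencil, Matrix.sub_apply, Matrix.sum_apply, Matrix.smul_apply, Matrix.map_apply,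
    smul_eq_mul]

theorem mssDetC_eval (A : ι → Matrix n n ℂ) (W : Matrix n n ℂ) (z : ι → ℂ) :
    eval z (mssDetC A W) = (∑ i, z i • A i - W).det := by
  rw [mssDetC, RingHom.map_det]
  congr 1
  ext a b
  simp only [RingHom.mapMatrix_apply, Matrix.map_apply, mssPencil_apply, map_sub, map_sum, map_mul,
    eval_X, eval_C, Matrix.sub_apply, Matrix.sum_apply, Matrix.smul_apply, smul_eq_mul]

/-- Leibniz rule for finite products. -/
theorem mss_derivation_prod {R : Type*} [CommRing R] (D : Derivation ℤ R R) {α : Type*}
    [DecidableEq α] (s : Finset α) (f : α → R) :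
    D (∏ i ∈ s, f i) = ∑ k ∈ s, D (f k) * ∏ i ∈ s.erase k, f i := by
  induction s using Finset.induction_on with
  | empty => simp
  | insert a s ha ih =>
    rw [Finset.prod_insert ha, D.leibniz, ih, Finset.sum_insert ha, Finset.erase_insert ha,
      smul_eq_mul, smul_eq_mul, Finset.mul_sum, add_comm, mul_comm]
    congr 1
    refine Finset.sum_congr rfl fun k hk => ?_
    have hka : k ≠ a := fun h => ha (h ▸ hk)
    rw [Finset.erase_insert_of_ne (Ne.symm hka), Finset.prod_insert]
    · ring
    · exact fun h => ha (Finset.mem_of_mem_erase h)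

/-- Jacobi's formula for a derivation of a commutative ring. -/
theorem mss_jacobi {R : Type*} [CommRing R] (D : Derivation ℤ R R) (N : Matrix n n R) :
    D N.det = (N.adjugate * N.map D).trace := by
  have h1 : D N.det = ∑ k, (N.updateCol k fun j => D (N j k)).det := by
    simp only [Matrix.det_apply, map_sum, Derivation.map_smul_of_tower]
    rw [Finset.sum_comm]
    refine Finset.sum_congr rfl fun σ _ => ?_
    rw [mss_derivation_prod, Finset.smul_sum]
    refine Finset.sum_congr rfl fun k _ => ?_
    congr 1
    rw [← Finset.mul_prod_erase Finset.univ _ (Finset.mem_univ k)]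
    congr 1
    · simp only [Matrix.updateCol_self]
    · refine Finset.prod_congr rfl fun i hi => ?_
      rw [Matrix.updateCol_ne (Finset.ne_of_mem_erase hi)]
  rw [h1, Matrix.trace]
  refine Finset.sum_congr rfl fun k _ => ?_
  rw [← Matrix.cramer_apply, Matrix.cramer_eq_adjugate_mulVec, Matrix.diag_apply, Matrix.mul_apply]
  rfl

theorem mssDetC_pderiv (A : ι → Matrix n n ℂ) (W : Matrix n n ℂ) (j : ι) :
    pderiv j (mssDetC A W) = ((mssPencil A W).adjugate * (A j).map C).trace := by
  classical
  have h := mss_jacobi ((pderiv j : Derivation ℂ (MvPolynomial ι ℂ) _).restrictScalars ℤ)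
    (mssPencil A W)
  have h' : pderiv j (mssDetC A W) = ((mssPencil A W).adjugate * (mssPencil A W).map
      ⇑((pderiv j : Derivation ℂ (MvPolynomial ι ℂ) _).restrictScalars ℤ)).trace := h
  rw [h']
  congr 2
  ext a b
  simp only [Matrix.map_apply, Derivation.restrictScalars_apply, mssPencil_apply, map_sub, map_sum,
    pderiv_C, sub_zero, Derivation.leibniz, pderiv_X, smul_eq_mul, mul_zero, zero_add]
  rw [Finset.sum_eq_single j]
  · simp
  · intro i _ hij
    simp [Pi.single_eq_of_ne hij]
  · intro h
    exact absurd (Finset.mem_univ j) h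

/-- rank one update, partial version: only the rows in `S` are modified. -/
theorem mss_det_sub_vecMulVec_aux {R : Type*} [CommRing R] (N : Matrix n n R) (u v : n → R)
    (S : Finset n) :
    (Matrix.of fun i j => N i j - (if i ∈ S then u i * v j else 0)).det =
      N.det - ∑ i ∈ S, u i * (N.updateRow i v).det := by
  induction S using Finset.induction_on with
  | empty =>
    simp only [Finset.notMem_empty, if_false, sub_zero, Finset.sum_empty]
    rfl
  | insert k S hk ih =>
    rw [Finset.sum_insert hk, ← sub_sub, sub_right_comm, ← ih]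
    set M : Matrix n n R := Matrix.of fun i j => N i j - (if i ∈ S then u i * v j else 0) with hM
    have h1 : (Matrix.of fun i j => N i j - (if i ∈ insert k S then u i * v j else 0)) =
        M.updateRow k (M k + (-u k) • v) := by
      ext i j
      by_cases hik : i = k
      · subst hik
        simp [hM, hk, sub_eq_add_neg]
      · simp [hM, Finset.mem_insert, hik]
    rw [h1, Matrix.det_updateRow_add, Matrix.det_updateRow_smul, Matrix.updateRow_eq_self]
    have h2 : (M.updateRow k v).det = (N.updateRow k v).det := by
      refine Matrix.det_eq_of_forall_row_eq_smul_add_const (fun i => if i ∈ S then -u i else 0) k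
        (by simp [hk]) fun i j => ?_
      by_cases hik : i = k
      · subst hik
        simp [hk]
      · by_cases hiS : i ∈ S
        · simp [hM, Matrix.updateRow_ne hik, hiS, sub_eq_add_neg]
        · simp [hM, Matrix.updateRow_ne hik, hiS]
    rw [h2]
    ring

/-- rank one update of a determinant over a commutative ring. -/
theorem mss_det_sub_vecMulVec {R : Type*} [CommRing R] (N : Matrix n n R) (u v : n → R) :
    (N - vecMulVec u v).det = N.det - (N.adjugate * vecMulVec u v).trace := by
  have h := mss_det_sub_vecMulVec_aux N u v Finset.univ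
  have h1 : (Matrix.of fun i j => N i j - (if i ∈ Finset.univ then u i * v j else 0)) =
      N - vecMulVec u v := by
    ext i j
    simp [vecMulVec_apply]
  rw [h1] at h
  rw [h]
  congr 1
  have h2 : ∀ i, (N.updateRow i v).det = ∑ j, N.adjugate j i * v j := by
    intro i
    rw [← Matrix.cramer_transpose_apply, Matrix.cramer_eq_adjugate_mulVec,
      ← Matrix.adjugate_transpose]
    rfl
  simp only [h2, Matrix.trace, Matrix.diag_apply, Matrix.mul_apply, vecMulVec_apply,
    Finset.mul_sum]
  rw [Finset.sum_comm]
  refine Finset.sum_congr rfl fun j _ => Finset.sum_congr rfl fun i _ => ?_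
  ring

omit [Fintype n] [DecidableEq n] in
/-- adding a rank one matrix to `W`. -/
theorem mssPencil_add_vecMulVec (A : ι → Matrix n n ℂ) (W : Matrix n n ℂ) (u v : n → ℂ) :
    mssPencil A (W + vecMulVec u v) =
      mssPencil A W - vecMulVec (fun a => (C (u a) : MvPolynomial ι ℂ)) (fun a => C (v a)) := by
  ext a b
  simp only [mssPencil_apply, Matrix.add_apply, Matrix.sub_apply, vecMulVec_apply, map_add, map_mul]
  exact (sub_sub _ _ _).symm

/-- **MSS Theorem 4.1, one step**: `1 - ∂_j` is the average over a random rank one subtraction. -/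
theorem mssDetC_sub_pderiv (A : ι → Matrix n n ℂ) (W : Matrix n n ℂ) (j : ι) (p : κ → ℝ)
    (w : κ → n → ℂ) (hp : ∑ k, p k = 1)
    (hA : A j = ∑ k, (p k : ℂ) • vecMulVec (w k) (star (w k))) :
    mssDetC A W - pderiv j (mssDetC A W) =
      ∑ k, C (p k : ℂ) * mssDetC A (W + vecMulVec (w k) (star (w k))) := by
  have h1 : ∀ k, mssDetC A (W + vecMulVec (w k) (star (w k))) =
      mssDetC A W - ((mssPencil A W).adjugate *
        (vecMulVec (w k) (star (w k))).map C).trace := by
    intro k
    rw [mssDetC, mssPencil_add_vecMulVec, mss_det_sub_vecMulVec, ← mssDetC]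
    congr 3
    ext a b
    simp only [vecMulVec_apply, Matrix.map_apply, map_mul]
  simp only [h1, mul_sub, Finset.sum_sub_distrib]
  rw [← Finset.sum_mul, ← map_sum]
  have hp' : (∑ k, (p k : ℂ)) = 1 := by exact_mod_cast hp
  rw [hp', map_one, one_mul, mssDetC_pderiv, hA]
  congr 1
  have h2 : (∑ k, (p k : ℂ) • vecMulVec (w k) (star (w k))).map (C : ℂ → MvPolynomial ι ℂ) =
      ∑ k, (C (p k : ℂ) : MvPolynomial ι ℂ) • (vecMulVec (w k) (star (w k))).map C := by
    ext a b
    simp only [Matrix.map_apply, Matrix.sum_apply, Matrix.smul_apply, smul_eq_mul, map_sum, map_mul]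
  rw [h2, Matrix.mul_sum, Matrix.trace_sum]
  refine Finset.sum_congr rfl fun k _ => ?_
  rw [Matrix.mul_smul, Matrix.trace_smul, smul_eq_mul]

end Claimed.Agent.R302
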