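/-
Row 302, package MSS (owner helper255).  File 4b: `det (∑ y_i A_i)` has real coefficients, is real
stable, and its barrier values at the diagonal point.
-/
import Claimed.Agent.R302.MSS.DetPoly

set_option autoImplicit false

namespace Claimed.Agent.R302

open MvPolynomial Matrix
open scoped ComplexOrder

variable {ι n : Type*} [Fintype ι] [Fintype n] [DecidableEq n]

omit [Fintype ι] in
/-- a complex polynomial which is real at real points has real coefficients. -/
theorem mss_exists_real_of_real_on_real (P : MvPolynomial ι ℂ)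
    (h : ∀ x : ι → ℝ, (eval (fun i => (x i : ℂ)) P).im = 0) :
    ∃ q : MvPolynomial ι ℝ, map (algebraMap ℝ ℂ) q = P := by
  have hconj : map (starRingEnd ℂ) P = P := by
    apply MvPolynomial.funext_set (fun _ => Set.range (Complex.ofReal))
    · intro _
      exact Set.infinite_range_of_injective Complex.ofReal_injective
    · intro x hx
      have hx' : ∀ i, ∃ r : ℝ, (r : ℂ) = x i := fun i => hx i (Set.mem_univ i)
      choose r hr using hx'
      obtain rfl : (fun i => (r i : ℂ)) = x := funext hr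
      have h1 : eval (fun i => (r i : ℂ)) (map (starRingEnd ℂ) P) =
          (starRingEnd ℂ) (eval (fun i => (r i : ℂ)) P) := by
        rw [eval_map]
        have := MvPolynomial.eval₂_comp_left (starRingEnd ℂ) (RingHom.id ℂ) (fun i => (r i : ℂ)) P
        simp only [RingHom.comp_id] at this
        rw [eval₂_id] at this
        rw [this]
        congr 1
        funext i
        simp
      rw [h1]
      exact Complex.conj_eq_iff_im.mpr (h r)
  have hmem : P ∈ Set.range (map (algebraMap ℝ ℂ) : MvPolynomial ι ℝ → MvPolynomial ι ℂ) := by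
    rw [mem_range_map_iff_coeffs_subset]
    intro c hc
    rw [Finset.mem_coe, mem_coeffs_iff] at hc
    obtain ⟨m, _, rfl⟩ := hc
    have h2 : (starRingEnd ℂ) (coeff m P) = coeff m P := by
      conv_rhs => rw [← hconj]
      rw [coeff_map]
    exact ⟨(coeff m P).re, (Complex.conj_eq_iff_real.mp h2).choose_spec ▸ by simp⟩
  exact hmem

theorem mss_det_exists_real (A : ι → Matrix n n ℂ) (hA : ∀ i, (A i).IsHermitian) :
    ∃ q : MvPolynomial ι ℝ, map (algebraMap ℝ ℂ) q = mssDetC A 0 := by
  apply mss_exists_real_of_real_on_real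
  intro x
  rw [mssDetC_eval, sub_zero]
  have hH : (∑ i, (x i : ℂ) • A i).IsHermitian := by
    unfold Matrix.IsHermitian
    rw [Matrix.conjTranspose_sum]
    refine Finset.sum_congr rfl fun i _ => ?_
    rw [Matrix.conjTranspose_smul, (hA i).eq]
    simp
  have h1 := Matrix.det_conjTranspose (∑ i, (x i : ℂ) • A i)
  rw [hH.eq] at h1
  exact Complex.conj_eq_iff_im.mp h1.symm

omit [Fintype ι] in
theorem mss_ofReal_eval (q : MvPolynomial ι ℝ) (x : ι → ℝ) :
    ((eval x q : ℝ) : ℂ) = eval (fun i => (x i : ℂ)) (map (algebraMap ℝ ℂ) q) := by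
  rw [eval_map]
  have := MvPolynomial.eval₂_comp_left (algebraMap ℝ ℂ) (RingHom.id ℝ) x q
  simp only [RingHom.comp_id] at this
  exact this

section base

variable (A : ι → Matrix n n ℂ) (hA : ∀ i, (A i).PosSemidef) (hsum : ∑ i, A i = 1)
  (q : MvPolynomial ι ℝ) (hq : map (algebraMap ℝ ℂ) q = mssDetC A 0)

include hA hsum hq

theorem mss_det_stable : MssStable q := by
  intro z hz h0
  have h1 : aeval z q = (∑ i, z i • A i).det := by
    rw [← sub_zero (∑ i, z i • A i), ← mssDetC_eval, ← hq, eval_map]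
    rfl
  rw [h1] at h0
  obtain ⟨v, hv, hMv⟩ := Matrix.exists_mulVec_eq_zero_iff.mpr h0
  have hquad : ∑ i, z i * (star v ⬝ᵥ (A i *ᵥ v)) = 0 := by
    have := congrArg (fun u => star v ⬝ᵥ u) hMv
    simp only [Matrix.sum_mulVec, Matrix.smul_mulVec, dotProduct_sum, dotProduct_smul, smul_eq_mul,
      dotProduct_zero] at this
    exact this
  have hnn : ∀ i, 0 ≤ star v ⬝ᵥ (A i *ᵥ v) := fun i => (hA i).dotProduct_mulVec_nonneg v
  have htot : ∑ i, star v ⬝ᵥ (A i *ᵥ v) = star v ⬝ᵥ v := by
    rw [← dotProduct_sum, ← Matrix.sum_mulVec, hsum, Matrix.one_mulVec]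
  have hvv : 0 < star v ⬝ᵥ v := by
    rw [Matrix.dotProduct_star_self_pos_iff]
    exact hv
  have him : (∑ i, z i * (star v ⬝ᵥ (A i *ᵥ v))).im = ∑ i, (z i).im * (star v ⬝ᵥ (A i *ᵥ v)).re := by
    rw [Complex.im_sum]
    refine Finset.sum_congr rfl fun i _ => ?_
    have := (Complex.le_def.mp (hnn i)).2
    simp only [Complex.zero_im] at this
    rw [Complex.mul_im, ← this]
    ring
  have hre : 0 < ∑ i, (star v ⬝ᵥ (A i *ᵥ v)).re := by
    rw [← Complex.re_sum, htot]
    exact (Complex.lt_def.mp hvv).1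
  obtain ⟨i, _, hi⟩ := Finset.exists_lt_of_sum_lt (s := Finset.univ) (f := fun _ : ι => (0 : ℝ))
    (g := fun i => (star v ⬝ᵥ (A i *ᵥ v)).re) (by simpa using hre)
  have hpos : 0 < ∑ i, (z i).im * (star v ⬝ᵥ (A i *ᵥ v)).re := by
    apply Finset.sum_pos'
    · intro k _
      exact mul_nonneg (hz k).le (Complex.le_def.mp (hnn k)).1
    · exact ⟨i, Finset.mem_univ i, mul_pos (hz i) hi⟩
  rw [← him, hquad] at hpos
  simp at hpos

theorem mss_det_above {t : ℝ} (ht : 0 < t) : MssAbove q (fun _ => t) := by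
  intro s hs
  have h1 : ((eval ((fun _ => t) + s) q : ℝ) : ℂ) = (∑ i, ((t + s i : ℝ) : ℂ) • A i).det := by
    rw [mss_ofReal_eval, hq, mssDetC_eval, sub_zero]
    rfl
  have hpd : (∑ i, ((t + s i : ℝ) : ℂ) • A i).PosDef := by
    have h2 : ∑ i, ((t + s i : ℝ) : ℂ) • A i = (t : ℂ) • (1 : Matrix n n ℂ) + ∑ i, (s i : ℂ) • A i := by
      rw [← hsum, Finset.smul_sum, ← Finset.sum_add_distrib]
      refine Finset.sum_congr rfl fun i _ => ?_
      rw [← add_smul]
      push_cast
      rfl
    rw [h2]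
    apply Matrix.PosDef.add_posSemidef
    · exact Matrix.PosDef.one.smul (by exact_mod_cast ht)
    · apply Matrix.posSemidef_sum
      intro i _
      exact (hA i).smul (by exact_mod_cast hs i)
  have h3 := hpd.det_pos
  rw [← h1] at h3
  exact_mod_cast h3

theorem mss_det_phi {t : ℝ} (ht : 0 < t) (i : ι) :
    mssPhi q i (fun _ => t) = (A i).trace.re / t := by
  have htc : (t : ℂ) ≠ 0 := by exact_mod_cast ht.ne'
  have hpen : (eval (fun _ : ι => (t : ℂ))).mapMatrix (mssPencil A 0) = (t : ℂ) • (1 : Matrix n n ℂ) := by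
    ext a b
    simp only [RingHom.mapMatrix_apply, Matrix.map_apply, mssPencil_apply, map_sub, map_sum, map_mul,
      eval_X, eval_C, Matrix.zero_apply, sub_zero]
    rw [← Finset.mul_sum, ← Matrix.sum_apply, hsum]
    simp
  have h1 : ((eval (fun _ => t) q : ℝ) : ℂ) = (t : ℂ) ^ Fintype.card n := by
    rw [mss_ofReal_eval, hq, mssDetC, RingHom.map_det, hpen, Matrix.det_smul, Matrix.det_one, mul_one]
  have h2 : ((eval (fun _ => t) (pderiv i q) : ℝ) : ℂ) * (t : ℂ) =
      (t : ℂ) ^ Fintype.card n * (A i).trace := by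
    have htr : ∀ M : Matrix n n (MvPolynomial ι ℂ), eval (fun _ : ι => (t : ℂ)) M.trace =
        ((eval (fun _ : ι => (t : ℂ))).mapMatrix M).trace := by
      intro M
      simp [Matrix.trace, map_sum]
    have hAi : (eval (fun _ : ι => (t : ℂ))).mapMatrix ((A i).map C) = A i := by
      ext a b
      simp
    have hadj : (t : ℂ) • ((t : ℂ) • (1 : Matrix n n ℂ)).adjugate =
        (t : ℂ) ^ Fintype.card n • (1 : Matrix n n ℂ) := by
      have := Matrix.adjugate_mul ((t : ℂ) • (1 : Matrix n n ℂ))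
      rw [Matrix.det_smul, Matrix.det_one, mul_one, Matrix.mul_smul, Matrix.mul_one] at this
      exact this
    rw [mss_ofReal_eval, ← pderiv_map, hq, mssDetC_pderiv, htr, map_mul, RingHom.map_adjugate, hpen,
      hAi, mul_comm, ← smul_eq_mul, ← Matrix.trace_smul, ← Matrix.smul_mul, hadj, Matrix.smul_mul,
      Matrix.one_mul, Matrix.trace_smul, smul_eq_mul]
  have hQ : eval (fun _ => t) q ≠ 0 := by
    intro h0
    rw [h0] at h1
    exact (pow_ne_zero _ htc) h1.symm
  have h3 : ((mssPhi q i (fun _ => t) : ℝ) : ℂ) = (A i).trace / (t : ℂ) := by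
    unfold mssPhi
    rw [Complex.ofReal_div, h1, eq_div_iff htc, div_mul_eq_mul_div, h2,
      mul_div_cancel_left₀ _ (pow_ne_zero _ htc)]
  have h4 := congrArg Complex.re h3
  rw [Complex.ofReal_re, Complex.div_ofReal_re] at h4
  exact h4

end base

end Claimed.Agent.R302
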