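/-
Row 302, package MSS (owner helper255).  File 5: expected characteristic polynomials of sums of
independent random rank one matrices (MSS Theorem 4.1) and the root bound (MSS Theorem 5.1 / 1.4).
-/
import Claimed.Agent.R302.MSS.DetBase

set_option autoImplicit false

namespace Claimed.Agent.R302

open MvPolynomial Matrix
open scoped ComplexOrder

variable {ι κ n : Type*} [Fintype ι] [DecidableEq ι] [Fintype κ] [Fintype n] [DecidableEq n]

/-- the swap `(ω, k) ↦ (ω[j := k], ω j)`. -/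
def mssSwap (j : ι) : (ι → κ) × κ ≃ (ι → κ) × κ where
  toFun a := (Function.update a.1 j a.2, a.1 j)
  invFun a := (Function.update a.1 j a.2, a.1 j)
  left_inv a := by simp
  right_inv a := by simp

omit [Fintype κ] in
theorem mss_prod_update {R : Type*} [CommSemiring R] (p : ι → κ → R) (j : ι) (ω : ι → κ) (k : κ) :
    (∏ i, p i (Function.update ω j k i)) * p j (ω j) = (∏ i, p i (ω i)) * p j k := by
  have h1 : ∀ i, p i (Function.update ω j k i) =
      Function.update (fun i => p i (ω i)) j (p j k) i := by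
    intro i
    exact Function.apply_update (fun i => p i) ω j k i
  simp only [h1]
  rw [Finset.prod_update_of_mem (Finset.mem_univ j),
    ← Finset.mul_prod_erase Finset.univ (fun i => p i (ω i)) (Finset.mem_univ j),
    Finset.sdiff_singleton_eq_erase]
  ring

theorem mss_resample_gen {R V : Type*} [CommSemiring R] [AddCommMonoid V] [Module R V]
    (p : ι → κ → R) (hp1 : ∀ i, ∑ k, p i k = 1) (j : ι) (G : (ι → κ) → V) :
    ∑ ω : ι → κ, (∏ i, p i (ω i)) • ∑ k, p j k • G (Function.update ω j k) =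
      ∑ ω : ι → κ, (∏ i, p i (ω i)) • G ω := by
  calc ∑ ω : ι → κ, (∏ i, p i (ω i)) • ∑ k, p j k • G (Function.update ω j k)
      = ∑ a : (ι → κ) × κ, ((∏ i, p i (a.1 i)) * p j a.2) • G (Function.update a.1 j a.2) := by
        rw [Fintype.sum_prod_type]
        refine Finset.sum_congr rfl fun ω _ => ?_
        rw [Finset.smul_sum]
        refine Finset.sum_congr rfl fun k _ => ?_
        rw [smul_smul]
    _ = ∑ a : (ι → κ) × κ, ((∏ i, p i (a.1 i)) * p j a.2) • G a.1 := by
        rw [← Equiv.sum_comp (mssSwap j)]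
        refine Finset.sum_congr rfl fun a _ => ?_
        simp only [mssSwap, Equiv.coe_fn_mk]
        rw [mss_prod_update, Function.update_idem, Function.update_eq_self]
    _ = ∑ ω : ι → κ, (∏ i, p i (ω i)) • G ω := by
        rw [Fintype.sum_prod_type]
        refine Finset.sum_congr rfl fun ω _ => ?_
        simp only []
        rw [← Finset.sum_smul, ← Finset.mul_sum, hp1, mul_one]

/-- resampling one coordinate does not change an expectation over a product law. -/
theorem mss_resample {V : Type*} [AddCommGroup V] [Module ℝ V] (p : ι → κ → ℝ)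
    (hp1 : ∀ i, ∑ k, p i k = 1) (j : ι) (G : (ι → κ) → V) :
    ∑ ω : ι → κ, (∏ i, p i (ω i)) • ∑ k, p j k • G (Function.update ω j k) =
      ∑ ω : ι → κ, (∏ i, p i (ω i)) • G ω :=
  mss_resample_gen p hp1 j G

/-- the covariance matrices. -/
noncomputable def mssCov (p : ι → κ → ℝ) (w : ι → κ → n → ℂ) (i : ι) : Matrix n n ℂ :=
  ∑ k, (p i k : ℂ) • vecMulVec (w i k) (star (w i k))

omit [Fintype ι] [DecidableEq ι] [DecidableEq n] in
theorem mssCov_posSemidef (p : ι → κ → ℝ) (hp0 : ∀ i k, 0 ≤ p i k) (w : ι → κ → n → ℂ) (i : ι) :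
    (mssCov p w i).PosSemidef := by
  apply Matrix.posSemidef_sum
  intro k _
  exact (Matrix.posSemidef_vecMulVec_self_star (w i k)).smul (by exact_mod_cast hp0 i k)

omit [Fintype ι] [DecidableEq ι] [DecidableEq n] in
theorem mssCov_trace (p : ι → κ → ℝ) (w : ι → κ → n → ℂ) (i : ι) :
    (mssCov p w i).trace.re = ∑ k, p i k * ∑ a, ‖w i k a‖ ^ 2 := by
  unfold mssCov
  rw [Matrix.trace_sum, Complex.re_sum]
  refine Finset.sum_congr rfl fun k _ => ?_
  rw [Matrix.trace_smul, Matrix.trace_vecMulVec, smul_eq_mul, Complex.re_ofReal_mul]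
  congr 1
  rw [dotProduct, Complex.re_sum]
  refine Finset.sum_congr rfl fun a _ => ?_
  rw [Pi.star_apply, Complex.star_def, Complex.mul_conj, Complex.ofReal_re, Complex.normSq_eq_norm_sq]

/-- **MSS Theorem 4.1** (list form). -/
theorem mss_expected_list (p : ι → κ → ℝ) (hp1 : ∀ i, ∑ k, p i k = 1) (w : ι → κ → n → ℂ)
    (q : MvPolynomial ι ℝ) (hq : map (algebraMap ℝ ℂ) q = mssDetC (mssCov p w) 0)
    (l : List ι) (hl : l.Nodup) :
    map (algebraMap ℝ ℂ) (l.foldr mssOp q) =
      ∑ ω : ι → κ, C ((∏ i, p i (ω i) : ℝ) : ℂ) *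
        mssDetC (mssCov p w) ((l.map fun i => vecMulVec (w i (ω i)) (star (w i (ω i)))).sum) := by
  induction l with
  | nil =>
    simp only [List.foldr_nil, List.map_nil, List.sum_nil]
    rw [← Finset.sum_mul, ← map_sum, ← Complex.ofReal_sum]
    have h1 : ∑ ω : ι → κ, ∏ i, p i (ω i) = 1 := by
      have := Finset.prod_univ_sum (fun _ : ι => (Finset.univ : Finset κ)) p
      rw [Fintype.piFinset_univ] at this
      rw [← this]
      simp [hp1]
    rw [h1, Complex.ofReal_one, C_1, one_mul, hq]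
  | cons j l ih =>
    have hj : j ∉ l := (List.nodup_cons.mp hl).1
    have ih' := ih (List.nodup_cons.mp hl).2
    have hp1c : ∀ i, ∑ k, (p i k : ℂ) = 1 := by
      intro i
      rw [← Complex.ofReal_sum, hp1, Complex.ofReal_one]
    have hres := mss_resample_gen (fun i k => (p i k : ℂ)) hp1c j
      (fun ω => mssDetC (mssCov p w)
        (((j :: l).map fun i => vecMulVec (w i (ω i)) (star (w i (ω i)))).sum))
    simp only [List.foldr_cons, mssOp, map_sub]
    rw [← pderiv_map, ih', map_sum, ← Finset.sum_sub_distrib]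
    simp only [smul_eq_C_mul] at hres
    simp only [Complex.ofReal_prod]
    rw [← hres]
    refine Finset.sum_congr rfl fun ω _ => ?_
    rw [pderiv_C_mul, ← mul_sub,
      mssDetC_sub_pderiv (mssCov p w) _ j (p j) (w j) (hp1 j) rfl]
    congr 1
    refine Finset.sum_congr rfl fun k _ => ?_
    congr 2
    rw [List.map_cons, List.sum_cons, Function.update_self, add_comm]
    congr 2
    apply List.map_congr_left
    intro i hi
    have hij : i ≠ j := fun h => hj (h ▸ hi)
    rw [Function.update_of_ne hij]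

omit [Fintype ι] [DecidableEq ι] in
theorem mss_eval_map_ofReal (q : MvPolynomial ι ℝ) (x : ι → ℝ) :
    eval (fun i => (x i : ℂ)) (map (algebraMap ℝ ℂ) q) = ((eval x q : ℝ) : ℂ) := by
  rw [eval_map]
  have := MvPolynomial.eval₂_comp_left (algebraMap ℝ ℂ) (RingHom.id ℝ) x q
  simp only [RingHom.comp_id] at this
  exact this.symm

/-- **Main theorem of the package** (MSS Theorems 4.1 + 5.1): the expected characteristic polynomial
of `∑ v_i v_i^*`, `v_i` independent with finite support, `∑ E v_i v_i^* = 1`, `E |v_i|^2 ≤ ε`, is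
positive on `[(1 + √ε)^2, ∞)`. -/
theorem mss_expected_det_pos (p : ι → κ → ℝ) (hp0 : ∀ i k, 0 ≤ p i k) (hp1 : ∀ i, ∑ k, p i k = 1)
    (w : ι → κ → n → ℂ)
    (hsum : ∑ i, ∑ k, (p i k : ℂ) • vecMulVec (w i k) (star (w i k)) = (1 : Matrix n n ℂ))
    {ε : ℝ} (hε : 0 < ε) (htr : ∀ i, ∑ k, p i k * ∑ a, ‖w i k a‖ ^ 2 ≤ ε)
    {x : ℝ} (hx : (1 + Real.sqrt ε) ^ 2 ≤ x) :
    ∃ r : ℝ, 0 < r ∧ (r : ℂ) = ∑ ω : ι → κ, ((∏ i, p i (ω i) : ℝ) : ℂ) *
      ((x : ℂ) • (1 : Matrix n n ℂ) - ∑ i, vecMulVec (w i (ω i)) (star (w i (ω i)))).det := by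
  classical
  have hApsd : ∀ i, (mssCov p w i).PosSemidef := mssCov_posSemidef p hp0 w
  have hAsum : ∑ i, mssCov p w i = 1 := hsum
  obtain ⟨q, hq⟩ := mss_det_exists_real (mssCov p w) (fun i => (hApsd i).isHermitian)
  have hst := mss_det_stable (mssCov p w) hApsd hAsum q hq
  have hs : 0 < Real.sqrt ε := Real.sqrt_pos.mpr hε
  have hss : Real.sqrt ε * Real.sqrt ε = ε := Real.mul_self_sqrt hε.le
  have ht : 0 < ε + Real.sqrt ε := by positivity
  have hδ : 0 < 1 + Real.sqrt ε := by positivity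
  have habove := mss_det_above (mssCov p w) hApsd hAsum q hq ht
  have hφ : ∀ i, mssPhi q i (fun _ => ε + Real.sqrt ε) ≤ 1 - 1 / (1 + Real.sqrt ε) := by
    intro i
    rw [mss_det_phi (mssCov p w) hApsd hAsum q hq ht i, mssCov_trace]
    have h1 : (∑ k, p i k * ∑ a, ‖w i k a‖ ^ 2) / (ε + Real.sqrt ε) ≤ ε / (ε + Real.sqrt ε) :=
      div_le_div_of_nonneg_right (htr i) ht.le
    have h2 : ε / (ε + Real.sqrt ε) = 1 - 1 / (1 + Real.sqrt ε) := by
      field_simp
      nlinarith
    linarith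
  have hfin := mss_barrier_univ hst habove hδ hφ
  have hpos := hfin (fun _ => x - (1 + Real.sqrt ε) ^ 2) (fun _ => by linarith)
  have hpt : ((fun _ : ι => ε + Real.sqrt ε + (1 + Real.sqrt ε)) + fun _ => x - (1 + Real.sqrt ε) ^ 2) =
      fun _ => x := by
    funext i
    simp only [Pi.add_apply]
    nlinarith
  rw [hpt] at hpos
  refine ⟨_, hpos, ?_⟩
  rw [← mss_eval_map_ofReal,
    mss_expected_list p hp1 w q hq _ (Finset.nodup_toList _), map_sum]
  refine Finset.sum_congr rfl fun ω _ => ?_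
  rw [map_mul, eval_C, mssDetC_eval, Finset.sum_map_toList, ← Finset.smul_sum, hAsum]

/-- the form consumed by `R302/Poly/Bounds.lean`: every real root of the expected characteristic
polynomial is `< (1 + √ε)^2`. -/
theorem mss_expected_root_lt (p : ι → κ → ℝ) (hp0 : ∀ i k, 0 ≤ p i k) (hp1 : ∀ i, ∑ k, p i k = 1)
    (w : ι → κ → n → ℂ)
    (hsum : ∑ i, ∑ k, (p i k : ℂ) • vecMulVec (w i k) (star (w i k)) = (1 : Matrix n n ℂ))
    {ε : ℝ} (hε : 0 < ε) (htr : ∀ i, ∑ k, p i k * ∑ a, ‖w i k a‖ ^ 2 ≤ ε)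
    {x : ℝ} (hx : ∑ ω : ι → κ, ((∏ i, p i (ω i) : ℝ) : ℂ) *
      ((x : ℂ) • (1 : Matrix n n ℂ) - ∑ i, vecMulVec (w i (ω i)) (star (w i (ω i)))).det = 0) :
    x < (1 + Real.sqrt ε) ^ 2 := by
  by_contra hcon
  obtain ⟨r, hr, hr'⟩ := mss_expected_det_pos p hp0 hp1 w hsum hε htr (not_lt.mp hcon)
  rw [hx] at hr'
  exact hr.ne' (by exact_mod_cast hr')

end Claimed.Agent.R302
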