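/-
Row 302, package MSS (owner helper255).  File 6: the sub-isotropic form of MSS Theorems 4.1 + 5.1:
`∑ E v_i v_i^* ≤ 1` instead of `= 1`.  The defect `1 - ∑ E v_i v_i^*` is carried as an additional
variable of the determinantal polynomial to which no operator `1 - ∂` is applied.
-/
import Claimed.Agent.R302.MSS.Main

set_option autoImplicit false

namespace Claimed.Agent.R302

open MvPolynomial Matrix
open scoped ComplexOrder

section barrier

variable {ι : Type*}

/-- iteration of the barrier step along a list; the barrier hypothesis is needed only for the members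
of the list. -/
theorem mss_barrier_list_mem [Fintype ι] [DecidableEq ι] {q : MvPolynomial ι ℝ} (hq : MssStable q)
    {x : ι → ℝ} (hx : MssAbove q x) {δ : ℝ} (hδ : 0 < δ) (l : List ι)
    (hφ : ∀ i ∈ l, mssPhi q i x ≤ 1 - 1 / δ) :
    MssStable (l.foldr mssOp q) ∧
      MssAbove (l.foldr mssOp q) (x + (l.map fun j => Pi.single j δ).sum) ∧
      ∀ i, mssPhi (l.foldr mssOp q) i (x + (l.map fun j => Pi.single j δ).sum) ≤ mssPhi q i x := by
  induction l with
  | nil =>
    simp only [List.foldr_nil, List.map_nil, List.sum_nil, add_zero]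
    exact ⟨hq, hx, fun _ => le_rfl⟩
  | cons j l ih =>
    obtain ⟨h1, h2, h3⟩ := ih (fun i hi => hφ i (List.mem_cons_of_mem j hi))
    have hstep := mss_barrier_step h1 h2 j hδ ((h3 j).trans (hφ j List.mem_cons_self))
    have hpt : x + ((j :: l).map fun j => Pi.single j δ).sum =
        x + (l.map fun j => Pi.single j δ).sum + Pi.single j δ := by
      simp only [List.map_cons, List.sum_cons]
      abel
    simp only [List.foldr_cons]
    rw [hpt]
    exact ⟨mss_stable_sub_pderiv h1 j, hstep.1, fun i => (hstep.2 i).trans (h3 i)⟩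

end barrier

variable {ι ι' κ n : Type*} [Fintype ι] [DecidableEq ι] [Fintype ι'] [Fintype κ] [Fintype n]
  [DecidableEq n]

/-- **MSS Theorem 4.1** (list form); the variables `ι'` of the determinantal polynomial may be more
than the sites `ι`. -/
theorem mss_expected_list_gen (e : ι → ι') (A : ι' → Matrix n n ℂ) (p : ι → κ → ℝ)
    (hp1 : ∀ i, ∑ k, p i k = 1) (w : ι → κ → n → ℂ) (hA : ∀ i, A (e i) = mssCov p w i)
    (q : MvPolynomial ι' ℝ) (hq : map (algebraMap ℝ ℂ) q = mssDetC A 0)
    (l : List ι) (hl : l.Nodup) :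
    map (algebraMap ℝ ℂ) ((l.map e).foldr mssOp q) =
      ∑ ω : ι → κ, C ((∏ i, p i (ω i) : ℝ) : ℂ) *
        mssDetC A ((l.map fun i => vecMulVec (w i (ω i)) (star (w i (ω i)))).sum) := by
  induction l with
  | nil =>
    simp only [List.map_nil, List.foldr_nil, List.sum_nil]
    rw [← Finset.sum_mul, ← map_sum, ← Complex.ofReal_sum]
    have h1 : ∑ ω : ι → κ, ∏ i, p i (ω i) = 1 := by
      have := Finset.prod_univ_sum (fun _ : ι => (Finset.univ : Finset κ)) p
      rw [Fintype.piFinset_univ] at this
      rw [← this]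
      simp [hp1]
    rw [h1, Complex.ofReal_one, C_1, one_mul, hq]
  | cons j l ih =>
    have hj : j ∉ l := (List.nodup_cons.mp hl).1
    have ih' := ih (List.nodup_cons.mp hl).2
    have hp1c : ∀ i, ∑ k, (p i k : ℂ) = 1 := by
      intro i
      rw [← Complex.ofReal_sum, hp1, Complex.ofReal_one]
    have hres := mss_resample_gen (fun i k => (p i k : ℂ)) hp1c j
      (fun ω => mssDetC A
        (((j :: l).map fun i => vecMulVec (w i (ω i)) (star (w i (ω i)))).sum))
    simp only [List.map_cons, List.foldr_cons, mssOp, map_sub]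
    rw [← pderiv_map, ih', map_sum, ← Finset.sum_sub_distrib]
    simp only [smul_eq_C_mul] at hres
    simp only [Complex.ofReal_prod]
    simp only [List.map_cons] at hres
    rw [← hres]
    refine Finset.sum_congr rfl fun ω _ => ?_
    rw [pderiv_C_mul, ← mul_sub,
      mssDetC_sub_pderiv A _ (e j) (p j) (w j) (hp1 j) (hA j)]
    congr 1
    refine Finset.sum_congr rfl fun k _ => ?_
    congr 2
    rw [List.sum_cons, Function.update_self, add_comm]
    congr 2
    apply List.map_congr_left
    intro i hi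
    have hij : i ≠ j := fun h => hj (h ▸ hi)
    rw [Function.update_of_ne hij]

/-- **MSS Theorems 4.1 + 5.1, sub-isotropic form**: `v_i` independent with finite support,
`∑ E v_i v_i^* ≤ 1`, `E |v_i|^2 ≤ ε`: the expected characteristic polynomial of `∑ v_i v_i^*` is
positive on `[(1 + √ε)^2, ∞)`. -/
theorem mss_expected_det_pos_of_le (p : ι → κ → ℝ) (hp0 : ∀ i k, 0 ≤ p i k)
    (hp1 : ∀ i, ∑ k, p i k = 1) (w : ι → κ → n → ℂ)
    (hsum : ((1 : Matrix n n ℂ) -
      ∑ i, ∑ k, (p i k : ℂ) • vecMulVec (w i k) (star (w i k))).PosSemidef)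
    {ε : ℝ} (hε : 0 < ε) (htr : ∀ i, ∑ k, p i k * ∑ a, ‖w i k a‖ ^ 2 ≤ ε)
    {x : ℝ} (hx : (1 + Real.sqrt ε) ^ 2 ≤ x) :
    ∃ r : ℝ, 0 < r ∧ (r : ℂ) = ∑ ω : ι → κ, ((∏ i, p i (ω i) : ℝ) : ℂ) *
      ((x : ℂ) • (1 : Matrix n n ℂ) - ∑ i, vecMulVec (w i (ω i)) (star (w i (ω i)))).det := by
  classical
  let A : Option ι → Matrix n n ℂ := fun o =>
    o.elim ((1 : Matrix n n ℂ) - ∑ i, mssCov p w i) (mssCov p w)
  have hApsd : ∀ o, (A o).PosSemidef := by
    intro o
    cases o with
    | none => exact hsum
    | some i => exact mssCov_posSemidef p hp0 w i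
  have hAsum : ∑ o, A o = 1 := by
    rw [Fintype.sum_option]
    simp only [A, Option.elim_none, Option.elim_some]
    abel
  obtain ⟨q, hq⟩ := mss_det_exists_real A (fun o => (hApsd o).isHermitian)
  have hst := mss_det_stable A hApsd hAsum q hq
  have hs : 0 < Real.sqrt ε := Real.sqrt_pos.mpr hε
  have hss : Real.sqrt ε * Real.sqrt ε = ε := Real.mul_self_sqrt hε.le
  have ht : 0 < ε + Real.sqrt ε := by positivity
  have hδ : 0 < 1 + Real.sqrt ε := by positivity
  have habove := mss_det_above A hApsd hAsum q hq ht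
  have hφ : ∀ o ∈ (Finset.univ : Finset ι).toList.map some,
      mssPhi q o (fun _ => ε + Real.sqrt ε) ≤ 1 - 1 / (1 + Real.sqrt ε) := by
    intro o ho
    obtain ⟨i, -, rfl⟩ := List.mem_map.mp ho
    rw [mss_det_phi A hApsd hAsum q hq ht (some i)]
    have hAi : A (some i) = mssCov p w i := rfl
    rw [hAi, mssCov_trace]
    have h1 : (∑ k, p i k * ∑ a, ‖w i k a‖ ^ 2) / (ε + Real.sqrt ε) ≤ ε / (ε + Real.sqrt ε) :=
      div_le_div_of_nonneg_right (htr i) ht.le
    have h2 : ε / (ε + Real.sqrt ε) = 1 - 1 / (1 + Real.sqrt ε) := by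
      field_simp
      nlinarith
    linarith
  have hfin := (mss_barrier_list_mem hst habove hδ _ hφ).2.1
  have hsumpt : (((Finset.univ : Finset ι).toList.map some).map
      fun j => (Pi.single j (1 + Real.sqrt ε) : Option ι → ℝ)).sum =
      fun o => o.elim 0 (fun _ => 1 + Real.sqrt ε) := by
    rw [List.map_map, Finset.sum_map_toList]
    funext o
    rw [Finset.sum_apply]
    cases o with
    | none => simp
    | some i =>
      simp only [Function.comp, Option.elim_some]
      rw [Finset.sum_eq_single i]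
      · simp
      · intro b _ hb
        rw [Pi.single_eq_of_ne]
        intro h
        exact hb (Option.some_injective _ h).symm
      · intro h
        exact (h (Finset.mem_univ i)).elim
  rw [hsumpt] at hfin
  have hpos := hfin (fun o => x - (ε + Real.sqrt ε) - o.elim 0 (fun _ => 1 + Real.sqrt ε)) (by
    intro o
    cases o with
    | none =>
      simp only [Option.elim_none]
      nlinarith
    | some i =>
      simp only [Option.elim_some]
      nlinarith)
  have hpt : (((fun _ : Option ι => ε + Real.sqrt ε) + fun o => o.elim 0 (fun _ => 1 + Real.sqrt ε)) +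
      fun o => x - (ε + Real.sqrt ε) - o.elim 0 (fun _ => 1 + Real.sqrt ε)) = fun _ => x := by
    funext o
    simp only [Pi.add_apply]
    ring
  rw [hpt] at hpos
  refine ⟨_, hpos, ?_⟩
  rw [← mss_eval_map_ofReal,
    mss_expected_list_gen some A p hp1 w (fun _ => rfl) q hq _ (Finset.nodup_toList _), map_sum]
  refine Finset.sum_congr rfl fun ω _ => ?_
  rw [map_mul, eval_C, mssDetC_eval, Finset.sum_map_toList, ← Finset.smul_sum, hAsum]

end Claimed.Agent.R302
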